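import Vale.Agent.P300.H863.Unif

/-!
# P300, block A: assembly of the Golod-Shafarevich estimate, equivariant form

`Gam` a group with an action `act : V →* MulAut Gam`, `π : Gam →* FreeGroup ι` surjective, `dl : Gam`
with `π dl = 1`.  `LAHyp`: Lemma A, with a degree function `d : κ → ℕ` fixed in advance.

`gsla`: for `n` large, every finite set `K` of elements of `Gam` and all exponents `q g` large powers
of `l`, the ideal of `k[Gam]` generated by `v.dl - 1`, `v ∈ Vn n`, and `v.(g ^ q g) - 1`, `v ∈ V`,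
`g ∈ K`, has `dim k[Gam] / (J + I ^ N)` unbounded.  The thresholds depend only on `d`, `t` and the
number of elements of `K` (not on the field, the groups and the action).
-/

namespace Vale.Agent.P300.GS

open Finset Submodule MonoidAlgebra

/-- The algebra map of a group homomorphism. -/
noncomputable abbrev amap (F : Type*) [Field F] {G H : Type*} [Group G] [Group H] (f : G →* H) :
    MonoidAlgebra F G →ₐ[F] MonoidAlgebra F H := mapDomainAlgHom F F f

section basics

variable {F : Type*} [Field F] {G H : Type*} [Group G] [Group H]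

theorem amap_of (f : G →* H) (g : G) : amap F f (of F G g) = of F H (f g) := by simp

theorem amap_surjective {f : G →* H} (hf : Function.Surjective f) :
    Function.Surjective (amap F f) := by
  intro y
  induction y using MonoidAlgebra.induction_on with
  | of h =>
    obtain ⟨g, rfl⟩ := hf h
    exact ⟨of F G g, amap_of f g⟩
  | add x y hx hy =>
    obtain ⟨a, rfl⟩ := hx
    obtain ⟨b, rfl⟩ := hy
    exact ⟨a + b, map_add _ _ _⟩
  | smul c x hx =>
    obtain ⟨a, rfl⟩ := hx
    exact ⟨c • a, map_smul _ _ _⟩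

theorem of_pow_sub_one (l : ℕ) [Fact l.Prime] [CharP F l] (g : G) (a : ℕ) :
    of F G (g ^ l ^ a) - 1 = (of F G g - 1) ^ l ^ a := by
  have : CharP (MonoidAlgebra F G) l := by
    refine charP_of_injective_algebraMap (R := F) ?_ l
    exact (algebraMap F (MonoidAlgebra F G)).injective
  rw [sub_pow_char_pow_of_commute _ _ (Commute.one_right _), one_pow, map_pow]

end basics

section

variable (F : Type*) [Field F] {Gam V : Type*} [Group Gam] [Group V] (act : V →* MulAut Gam)

/-- The action of `v` on the group algebra. -/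
noncomputable abbrev vact (v : V) : MonoidAlgebra F Gam →ₐ[F] MonoidAlgebra F Gam :=
  amap F (act v).toMonoidHom

theorem vact_of (v : V) (g : Gam) : vact F act v (of F Gam g) = of F Gam (act v g) :=
  amap_of _ _

theorem vact_mul (v w : V) (a : MonoidAlgebra F Gam) :
    vact F act (v * w) a = vact F act v (vact F act w a) := by
  induction a using MonoidAlgebra.induction_on with
  | of g => rw [vact_of, vact_of, vact_of, map_mul]; rfl
  | add x y hx hy => simp only [map_add, hx, hy]
  | smul c x hx => simp only [map_smul, hx]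

theorem vact_one (a : MonoidAlgebra F Gam) : vact F act 1 a = a := by
  induction a using MonoidAlgebra.induction_on with
  | of g => rw [vact_of, map_one]; rfl
  | add x y hx hy => simp only [map_add, hx, hy]
  | smul c x hx => simp only [map_smul, hx]

theorem vact_augF (v : V) {n : ℕ} {a : MonoidAlgebra F Gam} (ha : a ∈ augF F Gam n) :
    vact F act v a ∈ augF F Gam n := map_augF _ ha

/-- The subgroup of elements `v` with `(v - 1) I ⊆ I ^ (n+1)`. -/
noncomputable def Vn (n : ℕ) : Subgroup V where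
  carrier := {v | ∀ a ∈ augF F Gam 1, vact F act v a - a ∈ augF F Gam (n + 1)}
  one_mem' := fun a _ => by
    rw [vact_one, sub_self]
    exact zero_mem _
  mul_mem' := fun {v w} hv hw a ha => by
    have e : vact F act (v * w) a - a =
        (vact F act v (vact F act w a) - vact F act w a) + (vact F act w a - a) := by
      rw [vact_mul]; abel
    rw [e]
    exact add_mem (hv _ (vact_augF F act w ha)) (hw a ha)
  inv_mem' := fun {v} hv a ha => by
    have h1 := vact_augF F act v⁻¹ (hv a ha)
    rw [map_sub, ← vact_mul, inv_mul_cancel, vact_one] at h1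
    rw [← neg_mem_iff, neg_sub]
    exact h1

theorem mem_Vn {n : ℕ} {v : V} :
    v ∈ Vn F act n ↔ ∀ a ∈ augF F Gam 1, vact F act v a - a ∈ augF F Gam (n + 1) := Iff.rfl

instance Vn_normal (n : ℕ) : (Vn F act n).Normal where
  conj_mem := fun v hv w a ha => by
    have h1 := vact_augF F act w (hv _ (vact_augF F act w⁻¹ ha))
    rw [map_sub, ← vact_mul, ← vact_mul, ← vact_mul, mul_inv_cancel, vact_one] at h1
    exact h1

variable {ι : Type} [Fintype ι]

/-- **Lemma A**, as a hypothesis, with the degree function `d`. -/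
def LAHyp {κ : Type} (π : Gam →* FreeGroup ι) (d : κ → ℕ) : Prop :=
  ∀ a ∈ augF F Gam 1, ∃ w : κ → MonoidAlgebra F (FreeGroup ι),
    (∀ k, w k ∈ augF F (FreeGroup ι) (d k)) ∧
    ∀ (v : V) (n : ℕ), amap F π (vact F act v a) ∈ span F (Set.range w) ⊔ augF F (FreeGroup ι) n

/-- The relators minus one. -/
def Rel (dl : Gam) (n : ℕ) (K : Finset Gam) (q : Gam → ℕ) : Set (MonoidAlgebra F Gam) :=
  {x | ∃ v ∈ Vn F act n, x = of F Gam (act v dl) - 1} ∪
    {x | ∃ g ∈ K, ∃ v : V, x = of F Gam (act v (g ^ q g)) - 1}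

variable {F act}

/-- **The Golod-Shafarevich estimate**, with explicit numerical conditions. -/
theorem gsla_core (l : ℕ) [Fact l.Prime] [CharP F l] {π : Gam →* FreeGroup ι}
    (hfd : ∀ N, FiniteDimensional F (MonoidAlgebra F Gam ⧸ augF F Gam N))
    (hπ : Function.Surjective π) {dl : Gam} (hdl : π dl = 1) {κ : Type} {d : κ → ℕ}
    (hd : ∀ k, 1 ≤ d k) {t η : ℝ} (ht0 : 0 < t) (ht1 : t < 1) (hs : Summable fun k => t ^ d k)
    (hη0 : 0 < η) (hη : Fintype.card ι * t - 1 = 2 * η) (hLA : LAHyp F act π d)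
    {n : ℕ} (hn : ∑' k, t ^ max (d k) (n + 1) < η) (K : Finset Gam) (q : Gam → ℕ)
    (hq : ∀ g ∈ K, (∃ a, q g = l ^ a) ∧
      ∑' μ : Sym κ (q g), t ^ ((μ : Multiset κ).map d).sum < η / (2 * (K.card + 1)))
    (D : ℕ) : ∃ N, D < Module.finrank F (MonoidAlgebra F Gam ⧸
          (JS F (Rel F act dl n K q) ⊔ augF F Gam N)) := by
  classical
  have hl : 0 < l := (Fact.out : l.Prime).pos
  -- the orbit span of `dl - 1`
  have hdl1 : of F Gam dl - 1 ∈ augF F Gam 1 := augF_one_sub dl
  obtain ⟨w₀, hw₀, hW₀⟩ := hLA _ hdl1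
  let W : Submodule F (MonoidAlgebra F (FreeGroup ι)) :=
    span F (Set.range fun v : V => amap F π (vact F act v (of F Gam dl - 1)))
  have hW : ∀ n, W ≤ span F (Set.range w₀) ⊔ (foxFil F ι).I n := by
    intro n
    refine span_le.mpr ?_
    rintro _ ⟨v, rfl⟩
    exact hW₀ v n
  have hmain := FoxFil.small_tail' (A := foxFil F ι) W hw₀ ht0 ht1 hs hW
    (Nat.succ_pos n) hn
  -- the powers
  have hK : ∀ g ∈ K, (foxFil F ι).Small t (η / (2 * (K.card + 1)))
      {x | ∃ v : V, x = (amap F π (of F Gam (act v g) - 1)) ^ q g} := by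
    intro g hg
    obtain ⟨w, hw, hW⟩ := hLA _ (augF_one_sub (F := F) g)
    obtain ⟨⟨a, ha⟩, hqg⟩ := hq g hg
    have h1 : 1 ≤ q g := by rw [ha]; exact Nat.one_le_pow _ _ hl
    refine (FoxFil.small_sym (A := foxFil F ι) hw hd ht0 ht1 hs h1 hqg).mono ?_ le_rfl
    rintro _ ⟨v, rfl⟩
    refine ⟨_, fun N => ?_, rfl⟩
    have := hW v N
    rw [map_sub, vact_of, map_one] at this
    exact this
  have hsm : (foxFil F ι).Small t (η / 2 + K.card * (η / (2 * (K.card + 1))))
      (⋃ g ∈ K, {x | ∃ v : V, x = (amap F π (of F Gam (act v g) - 1)) ^ q g}) :=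
    FoxFil.Small.biUnion K (by positivity) hK
  have hall := hmain.union hsm
  have hle : η + (η / 2 + K.card * (η / (2 * (K.card + 1)))) ≤ Fintype.card ι * t - 1 := by
    have h1 : (K.card : ℝ) * (η / (2 * (K.card + 1))) ≤ η / 2 := by
      rw [← mul_div_assoc, div_le_iff₀ (by positivity)]
      nlinarith
    rw [hη]
    linarith
  obtain ⟨N, hN⟩ := hall.unbounded ht0 ht1 hle D
  refine ⟨N, hN.trans_le ?_⟩
  -- transfer
  have h0 : ∀ v, vact F act v (of F Gam dl - 1) = of F Gam (act v dl) - 1 := fun v => by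
    rw [map_sub, vact_of, map_one]
  have hker : JS F (Rel F act dl n K q) ⊔ augF F Gam N ≤
      (JS F (((W ⊓ (foxFil F ι).I (n + 1) : Submodule F (MonoidAlgebra F (FreeGroup ι))) :
        Set (MonoidAlgebra F (FreeGroup ι))) ∪
        (⋃ g ∈ K, {x | ∃ v : V, x = (amap F π (of F Gam (act v g) - 1)) ^ q g})) ⊔
        (foxFil F ι).I N).comap (amap F π).toLinearMap := by
    refine sup_le (JS_le ?_ ?_ ?_) fun x hx => ?_
    · rintro x (⟨v, hv, rfl⟩ | ⟨g, hg, v, rfl⟩)
      · refine mem_sup_left (subset_JS (Or.inl ⟨?_, ?_⟩))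
        · have e : (amap F π).toLinearMap (of F Gam (act v dl) - 1) =
              amap F π (vact F act v (of F Gam dl - 1)) := by
            rw [h0]
            rfl
          rw [e]
          exact subset_span ⟨v, rfl⟩
        · have e : (amap F π).toLinearMap (of F Gam (act v dl) - 1) =
              amap F π (vact F act v (of F Gam dl - 1) - (of F Gam dl - 1)) := by
            have h1 : amap F π (of F Gam dl - 1) = 0 := by
              rw [map_sub, map_one, amap_of, hdl, map_one, sub_self]
            rw [map_sub (amap F π), h1, sub_zero, h0]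
            rfl
          rw [e]
          exact map_augF π (hv _ hdl1)
      · refine mem_sup_left (subset_JS (Or.inr ?_))
        rw [Set.mem_iUnion₂]
        refine ⟨g, hg, v, ?_⟩
        obtain ⟨⟨a, ha⟩, -⟩ := hq g hg
        rw [ha, map_pow (act v), of_pow_sub_one l]
        show amap F π ((of F Gam (act v g) - 1) ^ l ^ a) = _
        rw [map_pow]
    · intro a x hx
      rw [mem_comap] at hx ⊢
      show amap F π (a * x) ∈ _
      rw [map_mul]
      obtain ⟨j, hj, i, hi, hji⟩ := mem_sup.mp hx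
      have e : amap F π x = j + i := hji.symm
      rw [e, mul_add]
      exact add_mem (mem_sup_left (JS_mul_left _ hj)) (mem_sup_right (augF_mul_left _ hi))
    · intro a x hx
      rw [mem_comap] at hx ⊢
      show amap F π (x * a) ∈ _
      rw [map_mul]
      obtain ⟨j, hj, i, hi, hji⟩ := mem_sup.mp hx
      have e : amap F π x = j + i := hji.symm
      rw [e, add_mul]
      exact add_mem (mem_sup_left (JS_mul_right _ hj)) (mem_sup_right (augF_mul_right _ hi))
    · exact mem_sup_right (map_augF π hx)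
  have hfd' : FiniteDimensional F (MonoidAlgebra F Gam ⧸
      (JS F (Rel F act dl n K q) ⊔ augF F Gam N)) := by
    have := hfd N
    refine Module.Finite.of_surjective (mapQ (augF F Gam N)
      (JS F (Rel F act dl n K q) ⊔ augF F Gam N) LinearMap.id
      (by rw [comap_id]; exact le_sup_right)) fun y => ?_
    obtain ⟨r, rfl⟩ := (JS F (Rel F act dl n K q) ⊔ augF F Gam N).mkQ_surjective y
    exact ⟨(augF F Gam N).mkQ r, rfl⟩
  refine LinearMap.finrank_le_finrank_of_surjective (f := mapQ _ _ (amap F π).toLinearMap hker)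
    fun y => ?_
  obtain ⟨r, rfl⟩ := Submodule.mkQ_surjective _ y
  obtain ⟨x, rfl⟩ := amap_surjective (F := F) hπ r
  exact ⟨Submodule.mkQ _ x, rfl⟩

/-- **The Golod-Shafarevich estimate**, with uniform thresholds. -/
theorem gsla {ι : Type} [Fintype ι] {κ : Type} {d : κ → ℕ} (hd : ∀ k, 1 ≤ d k) {t : ℝ}
    (ht0 : 0 < t) (ht1 : t < 1) (hs : Summable fun k => t ^ d k) (ht : 1 < Fintype.card ι * t) :
    ∃ n₀ : ℕ, ∀ n ≥ n₀, ∀ c : ℕ, ∃ q₀ : ℕ, ∀ (F : Type) [Field F] (l : ℕ) [Fact l.Prime]
      [CharP F l] (Gam V : Type) [Group Gam] [Group V] (act : V →* MulAut Gam)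
      (π : Gam →* FreeGroup ι) (dl : Gam),
      (∀ N, FiniteDimensional F (MonoidAlgebra F Gam ⧸ augF F Gam N)) →
      Function.Surjective π → π dl = 1 → LAHyp F act π d →
      ∀ (K : Finset Gam) (q : Gam → ℕ), K.card ≤ c → (∀ g ∈ K, q₀ ≤ q g ∧ ∃ a, q g = l ^ a) →
      ∀ D : ℕ, ∃ N, D < Module.finrank F (MonoidAlgebra F Gam ⧸
          (JS F (Rel F act dl n K q) ⊔ augF F Gam N)) := by
  set η : ℝ := (Fintype.card ι * t - 1) / 2 with hη
  have hη0 : 0 < η := by rw [hη]; linarith
  obtain ⟨n₀, hn₀⟩ := Filter.eventually_atTop.mp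
    ((tendsto_tail ht0 ht1 hs).eventually (gt_mem_nhds hη0))
  refine ⟨n₀, fun n hn c => ?_⟩
  have hc : 0 < η / (2 * ((c : ℝ) + 1)) := by positivity
  obtain ⟨q₀, hq₀⟩ := Filter.eventually_atTop.mp
    ((R3.tendsto_sym ht0 ht1 hd hs).eventually (gt_mem_nhds hc))
  refine ⟨q₀, fun F _ l _ _ Gam V _ _ act π dl hfd hπ hdl hLA K q hK hq D => ?_⟩
  refine gsla_core l hfd hπ hdl hd ht0 ht1 hs hη0 (by rw [hη]; ring) hLA
    (hn₀ (n + 1) (by omega)) K q (fun g hg => ⟨(hq g hg).2, ?_⟩) D
  refine (hq₀ (q g) (hq g hg).1).trans_le ?_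
  refine div_le_div_of_nonneg_left hη0.le (by positivity) ?_
  have : (K.card : ℝ) ≤ c := by exact_mod_cast hK
  linarith

/-- The group algebra of a free group of finite rank has finite dimensional quotients. -/
theorem finite_quot_freeGroup (F : Type*) [Field F] (α : Type*) [Fintype α] (N : ℕ) :
    FiniteDimensional F (MonoidAlgebra F (FreeGroup α) ⧸ augF F (FreeGroup α) N) :=
  (foxFil F α).finite_quot_I N

end

end Vale.Agent.P300.GS
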