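import Vale.Agent.P300.H863.Fox

/-!
# P300, block A: adapted bases and tails

`I` a descending filtration of an `F`-space with finite dimensional quotients.
* `gd I U e` = dimension of the image of `U ∩ I e` in `R / I (e+1)`.
* `exists_family`: for every `m` a family in `U`, with `gd I U e` members in `I e` for each `e ≥ m`,
  spanning `U ∩ I m` modulo every `I n`.
* `sum_gd_le`: if `U` is spanned by a family `w k ∈ I (d k)` modulo every `I n` then
  `∑_{e<n} gd I U e ≤ #{k | d k < n}`, hence `∑ gd I U e * t ^ e ≤ ∑ t ^ d k`.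
* `exists_adapted`: the tails are small.
-/

namespace Vale.Agent.P300.GS

open Finset Submodule

variable {F : Type*} [Field F] {R : Type*} [AddCommGroup R] [Module F R]

/-- Dimension of the graded piece of a subspace. -/
noncomputable def gd (I : ℕ → Submodule F R) (U : Submodule F R) (e : ℕ) : ℕ :=
  Module.finrank F ((U ⊓ I e).map (I (e + 1)).mkQ)

variable {I : ℕ → Submodule F R} (U : Submodule F R)

theorem exists_basis (hfd : ∀ n, FiniteDimensional F (R ⧸ I n)) (e : ℕ) :
    ∃ b : Fin (gd I U e) → R, (∀ i, b i ∈ U ⊓ I e) ∧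
      U ⊓ I e ≤ span F (Set.range b) ⊔ I (e + 1) := by
  have := hfd (e + 1)
  let B := Module.finBasis F ((U ⊓ I e).map (I (e + 1)).mkQ)
  have h1 : ∀ i, ∃ x ∈ U ⊓ I e, (I (e + 1)).mkQ x = (B i : R ⧸ I (e + 1)) := fun i =>
    mem_map.mp (B i).2
  choose b hb hbB using h1
  refine ⟨b, hb, fun x hx => ?_⟩
  have h2 : (I (e + 1)).mkQ x ∈ (U ⊓ I e).map (I (e + 1)).mkQ := mem_map_of_mem hx
  have h3 := B.sum_repr ⟨_, h2⟩
  have h4 := congrArg (Subtype.val) h3
  rw [AddSubmonoidClass.coe_finsetSum] at h4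
  simp only [SetLike.val_smul] at h4
  set c := B.repr ⟨_, h2⟩ with hc
  have h5 : (I (e + 1)).mkQ (∑ i, c i • b i) = (I (e + 1)).mkQ x := by
    rw [map_sum, ← h4]
    exact Finset.sum_congr rfl fun i _ => by rw [map_smul, hbB]
  rw [mkQ_apply, mkQ_apply, Submodule.Quotient.eq] at h5
  have h6 : x = ∑ i, c i • b i + (x - ∑ i, c i • b i) := by abel
  rw [h6]
  refine add_mem (mem_sup_left (sum_mem fun i _ => smul_mem _ _ (subset_span ⟨i, rfl⟩)))
    (mem_sup_right ?_)
  rw [← neg_mem_iff, neg_sub]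
  exact h5

/-- Adapted families. -/
theorem exists_family (hfd : ∀ n, FiniteDimensional F (R ⧸ I n)) (hanti : Antitone I) (m : ℕ) :
    ∃ f : (Σ e : {e : ℕ // m ≤ e}, Fin (gd I U e)) → R, (∀ k, f k ∈ U) ∧
      (∀ k, f k ∈ I (k.1 : ℕ)) ∧ ∀ n, U ⊓ I m ≤ span F (Set.range f) ⊔ I n := by
  choose b hb hbs using fun e => exists_basis U hfd e
  refine ⟨fun k => b k.1 k.2, fun k => (hb k.1 k.2).1, fun k => (hb k.1 k.2).2, fun n => ?_⟩
  have key : ∀ j, U ⊓ I m ≤ span F (Set.range fun k : (Σ e : {e : ℕ // m ≤ e}, Fin (gd I U e)) =>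
      b k.1 k.2) ⊔ (U ⊓ I (m + j)) := by
    intro j
    induction j with
    | zero => exact le_sup_right
    | succ j ih =>
      refine ih.trans (sup_le le_sup_left fun x hx => ?_)
      obtain ⟨y, hy, z, hz, hyz⟩ := mem_sup.mp (hbs (m + j) hx)
      have hle : span F (Set.range (b (m + j))) ≤ U := by
        refine span_le.mpr ?_
        rintro _ ⟨i, rfl⟩
        exact (hb (m + j) i).1
      have hyU : y ∈ U := hle hy
      have hzU : z ∈ U := by
        have : z = x - y := by rw [← hyz]; abel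
        rw [this]
        exact sub_mem hx.1 hyU
      rw [← hyz]
      refine add_mem (mem_sup_left (span_mono ?_ hy)) (mem_sup_right ⟨hzU, hz⟩)
      rintro _ ⟨i, rfl⟩
      exact ⟨⟨⟨m + j, Nat.le_add_right m j⟩, i⟩, rfl⟩
  refine (key n).trans (sup_le_sup_left (inf_le_right.trans (hanti (Nat.le_add_left n m))) _)

/-- The graded dimensions sum up to at most the dimension of the image. -/
theorem sum_gd_le_finrank (hfd : ∀ n, FiniteDimensional F (R ⧸ I n)) (hanti : Antitone I)
    (n : ℕ) : ∑ e ∈ Finset.range n, gd I U e ≤ Module.finrank F (U.map (I n).mkQ) := by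
  induction n with
  | zero => rw [Finset.sum_range_zero]; exact Nat.zero_le _
  | succ n ih =>
    have := hfd (n + 1)
    have := hfd n
    rw [Finset.sum_range_succ]
    let π : (R ⧸ I (n + 1)) →ₗ[F] (R ⧸ I n) := mapQ (I (n + 1)) (I n) LinearMap.id
      (by rw [comap_id]; exact hanti (Nat.le_succ n))
    let ρ : (U.map (I (n + 1)).mkQ) →ₗ[F] (R ⧸ I n) := π.comp (Submodule.subtype _)
    have h1 := LinearMap.finrank_range_add_finrank_ker ρ
    have h2 : Module.finrank F (U.map (I n).mkQ) ≤ Module.finrank F (LinearMap.range ρ) := by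
      refine Submodule.finrank_mono ?_
      rintro _ ⟨x, hx, rfl⟩
      exact ⟨⟨(I (n + 1)).mkQ x, mem_map_of_mem hx⟩, rfl⟩
    have h3 : gd I U n ≤ Module.finrank F (LinearMap.ker ρ) := by
      let j : ((U ⊓ I n).map (I (n + 1)).mkQ) →ₗ[F] (LinearMap.ker ρ) :=
        LinearMap.codRestrict _ (Submodule.inclusion (map_mono inf_le_left)) (by
          rintro ⟨_, ⟨x, hx, rfl⟩⟩
          rw [LinearMap.mem_ker]
          show π ((I (n + 1)).mkQ x) = 0
          simp only [π, mkQ_apply, mapQ_apply, LinearMap.id_coe, id_eq]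
          rw [Submodule.Quotient.mk_eq_zero]
          exact hx.2)
      refine LinearMap.finrank_le_finrank_of_injective (f := j) ?_
      intro x y hxy
      have h4 := congrArg (Subtype.val) (congrArg (Subtype.val) hxy)
      exact Subtype.ext h4
    omega

theorem finrank_map_le {κ : Type*} {w : κ → R} {d : κ → ℕ} (hw : ∀ k, w k ∈ I (d k))
    (hanti : Antitone I) (hfin : ∀ n, {k | d k < n}.Finite)
    (hU : ∀ n, U ≤ span F (Set.range w) ⊔ I n) (n : ℕ) :
    Module.finrank F (U.map (I n).mkQ) ≤ (hfin n).toFinset.card := by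
  classical
  have h1 : U.map (I n).mkQ ≤ span F (((hfin n).toFinset.image fun k => (I n).mkQ (w k) :
      Finset (R ⧸ I n)) : Set (R ⧸ I n)) := by
    refine (map_mono (hU n)).trans ?_
    rw [Submodule.map_sup, Submodule.map_span]
    refine sup_le ?_ ?_
    · refine span_le.mpr ?_
      rintro _ ⟨_, ⟨k, rfl⟩, rfl⟩
      by_cases hk : d k < n
      · refine subset_span ?_
        rw [Finset.mem_coe, Finset.mem_image]
        exact ⟨k, (hfin n).mem_toFinset.mpr hk, rfl⟩
      · have : (I n).mkQ (w k) = 0 := by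
          rw [mkQ_apply, Submodule.Quotient.mk_eq_zero]
          exact hanti (not_lt.mp hk) (hw k)
        rw [this]
        exact zero_mem _
    · rintro _ ⟨x, hx, rfl⟩
      have : (I n).mkQ x = 0 := by
        rw [mkQ_apply, Submodule.Quotient.mk_eq_zero]
        exact hx
      rw [this]
      exact zero_mem _
  refine (Submodule.finrank_mono h1).trans ?_
  refine (finrank_span_finset_le_card _).trans Finset.card_image_le

/-- Abel summation. -/
theorem abel_le {r b : ℕ → ℝ} (h : ∀ n, ∑ e ∈ Finset.range n, r e ≤ ∑ e ∈ Finset.range n, b e)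
    {t : ℝ} (ht0 : 0 ≤ t) (ht1 : t ≤ 1) (n : ℕ) :
    ∑ e ∈ Finset.range n, r e * t ^ e ≤ ∑ e ∈ Finset.range n, b e * t ^ e := by
  have key : ∀ n, t ^ n * (∑ e ∈ Finset.range n, b e - ∑ e ∈ Finset.range n, r e) ≤
      ∑ e ∈ Finset.range n, b e * t ^ e - ∑ e ∈ Finset.range n, r e * t ^ e := by
    intro n
    induction n with
    | zero => simp
    | succ n ih =>
      have h1 : 0 ≤ ∑ e ∈ Finset.range (n + 1), b e - ∑ e ∈ Finset.range (n + 1), r e := by
        have := h (n + 1); linarith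
      have h2 : t ^ (n + 1) * (∑ e ∈ Finset.range (n + 1), b e -
          ∑ e ∈ Finset.range (n + 1), r e) ≤ t ^ n * (∑ e ∈ Finset.range (n + 1), b e -
          ∑ e ∈ Finset.range (n + 1), r e) :=
        mul_le_mul_of_nonneg_right (pow_le_pow_of_le_one ht0 ht1 (Nat.le_succ n)) h1
      refine h2.trans ?_
      rw [Finset.sum_range_succ, Finset.sum_range_succ, Finset.sum_range_succ,
        Finset.sum_range_succ]
      linarith
  have h1 : 0 ≤ t ^ n * (∑ e ∈ Finset.range n, b e - ∑ e ∈ Finset.range n, r e) :=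
    mul_nonneg (pow_nonneg ht0 n) (by have := h n; linarith)
  have := key n
  linarith

/-- `∑_{e<n} gd e * t ^ e ≤ ∑ t ^ d k`. -/
theorem sum_gd_pow_le (hfd : ∀ n, FiniteDimensional F (R ⧸ I n)) (hanti : Antitone I)
    {κ : Type*} {w : κ → R} {d : κ → ℕ} (hw : ∀ k, w k ∈ I (d k))
    {t : ℝ} (ht0 : 0 < t) (ht1 : t < 1) (hs : Summable fun k => t ^ d k)
    (hU : ∀ n, U ≤ span F (Set.range w) ⊔ I n) (n : ℕ) :
    ∑ e ∈ Finset.range n, (gd I U e : ℝ) * t ^ e ≤ ∑' k, t ^ d k := by
  classical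
  have hfin : ∀ n, {k | d k < n}.Finite := by
    intro n
    have h1 : 0 < t ^ n := pow_pos ht0 n
    have h2 : ∀ᶠ k in Filter.cofinite, t ^ d k < t ^ n :=
      hs.tendsto_cofinite_zero.eventually (gt_mem_nhds h1)
    rw [Filter.eventually_cofinite] at h2
    refine h2.subset fun k hk => ?_
    exact not_lt.mpr (pow_le_pow_of_le_one ht0.le ht1.le (le_of_lt hk))
  let b : ℕ → ℝ := fun e => (((hfin (e + 1)).toFinset.filter fun k => d k = e).card : ℝ)
  have hb : ∀ n, ∀ g : ℕ → ℝ, ∑ e ∈ Finset.range n, b e * g e =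
      ∑ k ∈ (hfin n).toFinset, g (d k) := by
    intro n g
    have h1 : ∀ k ∈ (hfin n).toFinset, d k ∈ Finset.range n := fun k hk =>
      Finset.mem_range.mpr ((hfin n).mem_toFinset.mp hk)
    rw [← Finset.sum_fiberwise_of_maps_to h1]
    refine Finset.sum_congr rfl fun e he => ?_
    have h2 : ∑ k ∈ (hfin n).toFinset.filter (fun k => d k = e), g (d k) =
        ∑ k ∈ (hfin n).toFinset.filter (fun k => d k = e), g e :=
      Finset.sum_congr rfl fun k hk => by rw [(Finset.mem_filter.mp hk).2]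
    have h3 : (hfin (e + 1)).toFinset.filter (fun k => d k = e) =
        (hfin n).toFinset.filter (fun k => d k = e) := by
      ext k
      have hen := Finset.mem_range.mp he
      rw [Finset.mem_filter, Finset.mem_filter, Set.Finite.mem_toFinset, Set.Finite.mem_toFinset]
      constructor
      · rintro ⟨_, h5⟩
        exact ⟨show d k < n by omega, h5⟩
      · rintro ⟨_, h5⟩
        exact ⟨show d k < e + 1 by omega, h5⟩
    have h4 : b e = (((hfin n).toFinset.filter fun k => d k = e).card : ℝ) := by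
      rw [← h3]
    rw [h2, Finset.sum_const, nsmul_eq_mul, h4]
  have h1 : ∀ n, ∑ e ∈ Finset.range n, (gd I U e : ℝ) ≤ ∑ e ∈ Finset.range n, b e := by
    intro n
    have h2 := (sum_gd_le_finrank U hfd hanti n).trans (finrank_map_le U hw hanti hfin hU n)
    have h3 := hb n fun _ => 1
    simp only [mul_one, Finset.sum_const, nsmul_eq_mul] at h3
    rw [h3]
    exact_mod_cast h2
  refine (abel_le h1 ht0.le ht1.le n).trans ?_
  rw [hb n fun e => t ^ e]
  exact hs.sum_le_tsum _ fun k _ => by positivity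

theorem summable_gd (hfd : ∀ n, FiniteDimensional F (R ⧸ I n)) (hanti : Antitone I)
    {κ : Type*} {w : κ → R} {d : κ → ℕ} (hw : ∀ k, w k ∈ I (d k))
    {t : ℝ} (ht0 : 0 < t) (ht1 : t < 1) (hs : Summable fun k => t ^ d k)
    (hU : ∀ n, U ≤ span F (Set.range w) ⊔ I n) : Summable fun e => (gd I U e : ℝ) * t ^ e :=
  summable_of_sum_range_le (fun n => by positivity)
    (sum_gd_pow_le U hfd hanti hw ht0 ht1 hs hU)

/-- Sum over the adapted family. -/
theorem hasSum_family {t : ℝ} (ht0 : 0 < t)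
    (hs : Summable fun e => (gd I U e : ℝ) * t ^ e) (m : ℕ) :
    Summable (fun k : (Σ e : {e : ℕ // m ≤ e}, Fin (gd I U e)) => t ^ (k.1 : ℕ)) ∧
      ∑' k : (Σ e : {e : ℕ // m ≤ e}, Fin (gd I U e)), t ^ (k.1 : ℕ) =
        ∑' e : {e : ℕ // m ≤ e}, (gd I U e : ℝ) * t ^ (e : ℕ) := by
  have h1 : Summable fun e : {e : ℕ // m ≤ e} => (gd I U e : ℝ) * t ^ (e : ℕ) :=
    hs.comp_injective Subtype.val_injective
  have h2 : ∀ e : {e : ℕ // m ≤ e}, ∑' _i : Fin (gd I U e), t ^ (e : ℕ) =
      (gd I U e : ℝ) * t ^ (e : ℕ) := fun e => by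
    rw [tsum_fintype, Finset.sum_const, nsmul_eq_mul, Finset.card_univ, Fintype.card_fin]
  have h3 : Summable (fun k : (Σ e : {e : ℕ // m ≤ e}, Fin (gd I U e)) => t ^ (k.1 : ℕ)) := by
    rw [summable_sigma_of_nonneg fun k => by positivity]
    refine ⟨fun e => (hasSum_fintype _).summable, ?_⟩
    refine h1.congr fun e => ?_
    exact (h2 e).symm
  refine ⟨h3, ?_⟩
  rw [h3.tsum_sigma' fun e => (hasSum_fintype _).summable]
  exact tsum_congr h2

/-- **Tails of adapted families.** -/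
theorem exists_adapted (hfd : ∀ n, FiniteDimensional F (R ⧸ I n)) (hanti : Antitone I)
    {κ : Type*} {w : κ → R} {d : κ → ℕ} (hw : ∀ k, w k ∈ I (d k))
    {t : ℝ} (ht0 : 0 < t) (ht1 : t < 1) (hs : Summable fun k => t ^ d k)
    (hU : ∀ n, U ≤ span F (Set.range w) ⊔ I n) {ε : ℝ} (hε : 0 < ε) :
    ∃ m₀, ∀ m ≥ m₀, ∃ (κ' : Type) (f : κ' → R) (e : κ' → ℕ), (∀ k, f k ∈ U) ∧
      (∀ k, f k ∈ I (e k)) ∧ (∀ k, m ≤ e k) ∧ (∀ n, U ⊓ I m ≤ span F (Set.range f) ⊔ I n) ∧
      (Summable fun k => t ^ e k) ∧ ∑' k, t ^ e k < ε := by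
  have hsg := summable_gd U hfd hanti hw ht0 ht1 hs hU
  have htail := tendsto_sum_nat_add fun e => (gd I U e : ℝ) * t ^ e
  obtain ⟨m₀, hm₀⟩ := Filter.eventually_atTop.mp (htail.eventually (gt_mem_nhds hε))
  refine ⟨m₀, fun m hm => ?_⟩
  obtain ⟨f, hfU, hfI, hfs⟩ := exists_family U hfd hanti m
  obtain ⟨h1, h2⟩ := hasSum_family U ht0 hsg m
  refine ⟨_, f, fun k => (k.1 : ℕ), hfU, hfI, fun k => k.1.2, hfs, h1, ?_⟩
  rw [h2]
  have h3 : ∑' e : {e : ℕ // m ≤ e}, (gd I U e : ℝ) * t ^ (e : ℕ) =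
      ∑' k : ℕ, (gd I U (k + m) : ℝ) * t ^ (k + m) := by
    let E : ℕ ≃ {e : ℕ // m ≤ e} :=
      { toFun := fun k => ⟨k + m, Nat.le_add_left m k⟩
        invFun := fun e => e.1 - m
        left_inv := fun k => by simp
        right_inv := fun e => Subtype.ext (by simp [Nat.sub_add_cancel e.2]) }
    rw [← E.tsum_eq]
    rfl
  rw [h3]
  exact hm₀ m hm

end Vale.Agent.P300.GS
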