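import Vale.Agent.P300.H863.GS

/-!
# P300, block A: the group algebra of a free group as a filtered algebra with Fox decomposition

* `augI F G`: augmentation ideal of `MonoidAlgebra F G` (two-sided), `augF F G n = augI ^ n` as an
  `F`-subspace.
* `foxFil F α : FoxFil F (MonoidAlgebra F (FreeGroup α)) α`, `X i = x_i - 1`.
* `card_bound`: if all relators minus one lie in `K n` then `dim R / K n ≤ |FreeGroup α / N|`.
* `gs_infinite`: the group form of Golod-Shafarevich.
-/

namespace Vale.Agent.P300.GS

open Finset Submodule MonoidAlgebra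

section aug

variable (F : Type*) [Field F] (G : Type*) [Group G]

/-- The augmentation. -/
noncomputable def aug : MonoidAlgebra F G →ₐ[F] F := MonoidAlgebra.lift F F G 1

/-- The augmentation ideal. -/
noncomputable def augI : Ideal (MonoidAlgebra F G) := RingHom.ker (aug F G)

instance : (augI F G).IsTwoSided := by unfold augI; infer_instance

/-- The powers of the augmentation ideal, as `F`-subspaces. -/
noncomputable def augF (n : ℕ) : Submodule F (MonoidAlgebra F G) :=
  (augI F G ^ n).restrictScalars F

variable {F G}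

@[simp] theorem aug_of (g : G) : aug F G (of F G g) = 1 := by
  simp [aug]

theorem mem_augI {r : MonoidAlgebra F G} : r ∈ augI F G ↔ aug F G r = 0 := Iff.rfl

theorem mem_augF {n : ℕ} {r : MonoidAlgebra F G} : r ∈ augF F G n ↔ r ∈ augI F G ^ n := Iff.rfl

theorem of_sub_one_mem (g : G) : of F G g - 1 ∈ augI F G := by
  rw [mem_augI, map_sub, aug_of, map_one, sub_self]

theorem augF_zero : augF F G 0 = ⊤ := by
  unfold augF
  rw [Submodule.pow_zero, Ideal.one_eq_top]
  rfl

theorem augF_anti : Antitone (augF F G) := fun _ _ h _ hx => Ideal.pow_le_pow_right h hx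

theorem augF_mul {m n : ℕ} {a b : MonoidAlgebra F G} (ha : a ∈ augF F G m)
    (hb : b ∈ augF F G n) : a * b ∈ augF F G (m + n) := by
  rw [mem_augF, Ideal.IsTwoSided.pow_add]
  exact Ideal.mul_mem_mul ha hb

theorem augF_mul_left {n : ℕ} (a : MonoidAlgebra F G) {b : MonoidAlgebra F G}
    (hb : b ∈ augF F G n) : a * b ∈ augF F G n := Ideal.mul_mem_left _ a hb

theorem augF_mul_right {n : ℕ} (a : MonoidAlgebra F G) {b : MonoidAlgebra F G}
    (hb : b ∈ augF F G n) : b * a ∈ augF F G n := Ideal.mul_mem_right a _ hb

theorem mem_augF_one {r : MonoidAlgebra F G} : r ∈ augF F G 1 ↔ aug F G r = 0 := by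
  rw [mem_augF, Submodule.pow_one]; rfl

theorem augF_one_sub (g : G) : of F G g - 1 ∈ augF F G 1 := by
  rw [mem_augF_one, map_sub, aug_of, map_one, sub_self]

/-- Functoriality. -/
theorem map_augF {H : Type*} [Group H] (f : G →* H) {n : ℕ} {r : MonoidAlgebra F G}
    (hr : r ∈ augF F G n) : mapDomainAlgHom F F f r ∈ augF F H n := by
  have haug : ∀ r : MonoidAlgebra F G, aug F H (mapDomainAlgHom F F f r) = aug F G r := by
    intro r
    induction r using MonoidAlgebra.induction_on with
    | of g =>
      have h : mapDomainAlgHom F F f (of F G g) = of F H (f g) := by simp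
      rw [h, aug_of, aug_of]
    | add x y hx hy => rw [map_add, map_add, map_add, hx, hy]
    | smul c x hx => rw [map_smul, map_smul, map_smul, hx]
  induction n generalizing r with
  | zero => rw [augF_zero]; trivial
  | succ n ih =>
    rw [mem_augF, Submodule.pow_succ] at hr
    refine Submodule.mul_induction_on (C := fun r => mapDomainAlgHom F F f r ∈ augF F H (n + 1))
      hr (fun a ha b hb => ?_) fun x y hx hy => ?_
    · rw [map_mul]
      refine augF_mul (ih ha) ?_
      rw [mem_augF_one, haug]
      exact hb
    · rw [map_add]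
      exact add_mem hx hy

end aug

section fox

variable {F : Type*} [Field F] {α : Type*}

/-- `x_j - 1` -/
noncomputable def XX (F : Type*) [Field F] {α : Type*} (j : α) :
    MonoidAlgebra F (FreeGroup α) := of F (FreeGroup α) (FreeGroup.of j) - 1

/-- Every element is a constant plus a left combination of the `x_j - 1`. -/
theorem mem_span_XX (r : MonoidAlgebra F (FreeGroup α)) :
    r - algebraMap F _ (aug F _ r) ∈ Ideal.span (Set.range (XX F (α := α))) := by
  have hof : ∀ g : FreeGroup α, of F (FreeGroup α) g - 1 ∈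
      Ideal.span (Set.range (XX F (α := α))) := by
    intro g
    induction g using FreeGroup.induction_on with
    | C1 => rw [map_one, sub_self]; exact zero_mem _
    | of x => exact Ideal.subset_span ⟨x, rfl⟩
    | inv_of x h =>
      have e : of F (FreeGroup α) (FreeGroup.of x)⁻¹ - 1 =
          -(of F (FreeGroup α) (FreeGroup.of x)⁻¹ * (of F (FreeGroup α) (FreeGroup.of x) - 1)) := by
        rw [mul_sub, ← map_mul, inv_mul_cancel, map_one, mul_one]
        abel
      rw [e]
      exact neg_mem (Ideal.mul_mem_left _ _ h)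
    | mul x y hx hy =>
      have e : of F (FreeGroup α) (x * y) - 1 =
          of F (FreeGroup α) x * (of F (FreeGroup α) y - 1) + (of F (FreeGroup α) x - 1) := by
        rw [mul_sub, ← map_mul, mul_one]
        abel
      rw [e]
      exact add_mem (Ideal.mul_mem_left _ _ hy) hx
  induction r using MonoidAlgebra.induction_on with
  | of g => rw [aug_of, map_one]; exact hof g
  | add x y hx hy =>
    rw [map_add, map_add, add_sub_add_comm]
    exact add_mem hx hy
  | smul c x hx =>
    have e : c • x - algebraMap F _ (aug F _ (c • x)) =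
        algebraMap F _ c * (x - algebraMap F _ (aug F _ x)) := by
      rw [map_smul, smul_eq_mul, map_mul, mul_sub, Algebra.smul_def c x]
    rw [e]
    exact Ideal.mul_mem_left _ _ hx

variable [Fintype α]

theorem exists_sum_XX {r : MonoidAlgebra F (FreeGroup α)}
    (hr : r ∈ Ideal.span (Set.range (XX F (α := α)))) : ∃ a : α → MonoidAlgebra F (FreeGroup α),
    r = ∑ i, a i * XX F i := by
  rw [Ideal.span, Submodule.mem_span_range_iff_exists_fun] at hr
  obtain ⟨a, ha⟩ := hr
  exact ⟨a, ha.symm⟩

theorem augF_dec (n : ℕ) {r : MonoidAlgebra F (FreeGroup α)}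
    (hr : r ∈ augF F (FreeGroup α) (n + 1)) : ∃ a : α → MonoidAlgebra F (FreeGroup α),
    (∀ i, a i ∈ augF F (FreeGroup α) n) ∧ r = ∑ i, a i * XX F i := by
  rw [mem_augF, Submodule.pow_succ] at hr
  refine Submodule.mul_induction_on (C := fun r => ∃ a : α → MonoidAlgebra F (FreeGroup α),
    (∀ i, a i ∈ augF F (FreeGroup α) n) ∧ r = ∑ i, a i * XX F i) hr (fun a ha b hb => ?_)
    fun x y hx hy => ?_
  · have h1 := mem_span_XX b
    rw [mem_augI.mp hb, map_zero, sub_zero] at h1
    obtain ⟨b', rfl⟩ := exists_sum_XX h1
    refine ⟨fun i => a * b' i, fun i => augF_mul_right _ ha, ?_⟩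
    rw [Finset.mul_sum]
    exact Finset.sum_congr rfl fun i _ => by rw [mul_assoc]
  · obtain ⟨a, ha, rfl⟩ := hx
    obtain ⟨b, hb, rfl⟩ := hy
    refine ⟨a + b, fun i => add_mem (ha i) (hb i), ?_⟩
    rw [← Finset.sum_add_distrib]
    exact Finset.sum_congr rfl fun i _ => by rw [Pi.add_apply, add_mul]

/-! ### Fox derivatives -/

open Classical in
/-- The affine permutation attached to a generator. -/
noncomputable def affGen (F : Type*) [Field F] {α : Type*} (i j : α) :
    Equiv.Perm (MonoidAlgebra F (FreeGroup α)) where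
  toFun a := of F (FreeGroup α) (FreeGroup.of j) * a + if i = j then 1 else 0
  invFun a := of F (FreeGroup α) (FreeGroup.of j)⁻¹ * (a - if i = j then 1 else 0)
  left_inv a := by
    simp only
    rw [add_sub_cancel_right, ← mul_assoc, ← map_mul, inv_mul_cancel, map_one, one_mul]
  right_inv a := by
    simp only
    rw [← mul_assoc, ← map_mul, mul_inv_cancel, map_one, one_mul, sub_add_cancel]

/-- The affine action. -/
noncomputable def affAct (F : Type*) [Field F] {α : Type*} (i : α) :
    FreeGroup α →* Equiv.Perm (MonoidAlgebra F (FreeGroup α)) := FreeGroup.lift (affGen F i)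

/-- The Fox derivative of a group element. -/
noncomputable def foxD (F : Type*) [Field F] {α : Type*} (i : α) (g : FreeGroup α) :
    MonoidAlgebra F (FreeGroup α) := affAct F i g 0

omit [Fintype α] in
theorem affAct_apply (i : α) (g : FreeGroup α) (a : MonoidAlgebra F (FreeGroup α)) :
    affAct F i g a = of F (FreeGroup α) g * a + foxD F i g := by
  classical
  unfold foxD
  induction g using FreeGroup.induction_on generalizing a with
  | C1 => rw [map_one, Equiv.Perm.one_apply, Equiv.Perm.one_apply, map_one, one_mul, add_zero]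
  | of x =>
    simp only [affAct, FreeGroup.lift_apply_of, affGen, Equiv.coe_fn_mk, mul_zero, zero_add]
  | inv_of x _ =>
    have h : ∀ b, affAct F i (FreeGroup.of x)⁻¹ b = of F (FreeGroup α) (FreeGroup.of x)⁻¹ *
        (b - if i = x then 1 else 0) := by
      intro b
      simp only [affAct, map_inv, FreeGroup.lift_apply_of]
      rfl
    rw [h, h, ← mul_add]
    congr 1
    abel
  | mul x y hx hy =>
    rw [map_mul, Equiv.Perm.mul_apply, Equiv.Perm.mul_apply, hx, hy, hx (affAct F i y 0),
      mul_add, map_mul, mul_assoc]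
    abel

omit [Fintype α] in
theorem foxD_mul (i : α) (g h : FreeGroup α) :
    foxD F i (g * h) = of F (FreeGroup α) g * foxD F i h + foxD F i g := by
  have h1 : foxD F i (g * h) = affAct F i g (foxD F i h) := by
    unfold foxD
    rw [map_mul, Equiv.Perm.mul_apply]
  rw [h1, affAct_apply]

open Classical in
omit [Fintype α] in
theorem foxD_of (i j : α) : foxD F i (FreeGroup.of j) = if i = j then 1 else 0 := by
  unfold foxD
  simp only [affAct, FreeGroup.lift_apply_of, affGen, Equiv.coe_fn_mk, mul_zero, zero_add]

/-- The Fox derivative as a linear map. -/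
noncomputable def foxL (F : Type*) [Field F] {α : Type*} (i : α) :
    MonoidAlgebra F (FreeGroup α) →ₗ[F] MonoidAlgebra F (FreeGroup α) :=
  (MonoidAlgebra.basis (FreeGroup α) F).constr F (foxD F i)

omit [Fintype α] in
theorem foxL_of (i : α) (g : FreeGroup α) : foxL F i (of F (FreeGroup α) g) = foxD F i g := by
  have h : of F (FreeGroup α) g = MonoidAlgebra.basis (FreeGroup α) F g := by
    rw [MonoidAlgebra.basis_apply]; rfl
  rw [foxL, h, Module.Basis.constr_basis]

open Classical in
omit [Fintype α] in
theorem foxL_mul_XX (i j : α) (a : MonoidAlgebra F (FreeGroup α)) :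
    foxL F i (a * XX F j) = if i = j then a else 0 := by
  induction a using MonoidAlgebra.induction_on with
  | of g =>
    rw [XX, mul_sub, ← map_mul, mul_one, map_sub, foxL_of, foxL_of, foxD_mul, foxD_of]
    split_ifs <;> simp
  | add x y hx hy =>
    rw [add_mul, map_add, hx, hy]
    split_ifs <;> simp
  | smul c x hx =>
    rw [smul_mul_assoc, map_smul, hx]
    split_ifs <;> simp

/-- **The group algebra of a free group.** -/
noncomputable def foxFil (F : Type*) [Field F] (α : Type*) [Fintype α] :
    FoxFil F (MonoidAlgebra F (FreeGroup α)) α where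
  X := XX F
  I := augF F (FreeGroup α)
  zero := augF_zero
  anti := augF_anti
  mul := augF_mul
  dec := fun n _ hr => augF_dec n hr
  Xmem := fun i => augF_one_sub _
  uniq := fun a ha => by
    classical
    funext i
    have h := congrArg (foxL F i) ha
    rw [map_sum, map_zero] at h
    simp only [foxL_mul_XX] at h
    simpa using h
  one := fun r => ⟨aug F _ r, by
    rw [mem_augF_one, map_sub, AlgHom.commutes, Algebra.algebraMap_self_apply, sub_self]⟩
  one' := by
    rw [mem_augF_one, map_one]
    exact one_ne_zero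

@[simp] theorem foxFil_I (n : ℕ) : (foxFil F α).I n = augF F (FreeGroup α) n := rfl

@[simp] theorem foxFil_X (i : α) : (foxFil F α).X i = XX F i := rfl

variable {κ : Type*} {f : κ → MonoidAlgebra F (FreeGroup α)} {d : κ → ℕ}

/-- The subgroup of elements congruent to one modulo `J + I n` is normal. -/
noncomputable def cong (f : κ → MonoidAlgebra F (FreeGroup α)) (n : ℕ) :
    Subgroup (FreeGroup α) where
  carrier := {g | of F (FreeGroup α) g - 1 ∈ (foxFil F α).K f n}
  one_mem' := by
    show of F (FreeGroup α) 1 - 1 ∈ (foxFil F α).K f n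
    rw [map_one, sub_self]
    exact zero_mem _
  mul_mem' := fun {a b} ha hb => by
    have e : of F (FreeGroup α) (a * b) - 1 =
        of F (FreeGroup α) a * (of F (FreeGroup α) b - 1) + (of F (FreeGroup α) a - 1) := by
      rw [mul_sub, ← map_mul, mul_one]
      abel
    show of F (FreeGroup α) (a * b) - 1 ∈ (foxFil F α).K f n
    rw [e]
    exact add_mem ((foxFil F α).K_mul_left _ hb) ha
  inv_mem' := fun {a} ha => by
    have e : of F (FreeGroup α) a⁻¹ - 1 =
        -(of F (FreeGroup α) a⁻¹ * (of F (FreeGroup α) a - 1)) := by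
      rw [mul_sub, ← map_mul, inv_mul_cancel, map_one, mul_one]
      abel
    show of F (FreeGroup α) a⁻¹ - 1 ∈ (foxFil F α).K f n
    rw [e]
    exact neg_mem ((foxFil F α).K_mul_left _ ha)

theorem mem_cong {n : ℕ} {g : FreeGroup α} :
    g ∈ cong f n ↔ of F _ g - 1 ∈ (foxFil F α).K f n := Iff.rfl

instance cong_normal (n : ℕ) : (cong f n).Normal where
  conj_mem := fun a ha g => by
    rw [mem_cong] at ha ⊢
    have e : of F (FreeGroup α) (g * a * g⁻¹) - 1 =
        of F (FreeGroup α) g * (of F (FreeGroup α) a - 1) * of F (FreeGroup α) g⁻¹ := by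
      rw [mul_sub, sub_mul, ← map_mul, ← map_mul, mul_one, ← map_mul, mul_inv_cancel, map_one]
    rw [e]
    exact (foxFil F α).K_mul_right _ ((foxFil F α).K_mul_left _ ha)

/-- The dimension of `R / (J + I n)` is at most the index of any subgroup contained in the
congruence subgroup. -/
theorem card_bound {n : ℕ} {N : Subgroup (FreeGroup α)} (hN : N ≤ cong f n)
    [Finite (FreeGroup α ⧸ N)] : (foxFil F α).c f n ≤ Nat.card (FreeGroup α ⧸ N) := by
  classical
  cases nonempty_fintype (FreeGroup α ⧸ N)
  let q : FreeGroup α ⧸ N → (MonoidAlgebra F (FreeGroup α) ⧸ (foxFil F α).K f n) :=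
    fun g => ((foxFil F α).K f n).mkQ (of F _ g.out)
  have hspan : (⊤ : Submodule F (MonoidAlgebra F (FreeGroup α) ⧸ (foxFil F α).K f n)) ≤
      span F (Set.range q) := by
    intro x _
    obtain ⟨r, rfl⟩ := ((foxFil F α).K f n).mkQ_surjective x
    induction r using MonoidAlgebra.induction_on with
    | of g =>
      have h1 : ((foxFil F α).K f n).mkQ (of F _ g) = q (QuotientGroup.mk g) := by
        simp only [q, mkQ_apply]
        rw [Submodule.Quotient.eq]
        have h2 : ((QuotientGroup.mk g : FreeGroup α ⧸ N).out)⁻¹ * g ∈ N := by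
          rw [← QuotientGroup.eq]
          exact QuotientGroup.out_eq' _
        have h3 := hN h2
        rw [mem_cong] at h3
        have h4 := (foxFil F α).K_mul_left
          (of F _ ((QuotientGroup.mk g : FreeGroup α ⧸ N).out)) h3
        rw [mul_sub, ← map_mul, mul_one, mul_inv_cancel_left] at h4
        exact h4
      rw [h1]
      exact subset_span ⟨_, rfl⟩
    | add x y hx hy => rw [map_add]; exact add_mem (hx trivial) (hy trivial)
    | smul c x hx => rw [map_smul]; exact smul_mem _ _ (hx trivial)
  have h5 : Module.finrank F (MonoidAlgebra F (FreeGroup α) ⧸ (foxFil F α).K f n) ≤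
      Fintype.card (FreeGroup α ⧸ N) := by
    have h6 := finrank_range_le_card (R := F) q
    have h7 : span F (Set.range q) = ⊤ := top_le_iff.mp hspan
    rw [Set.finrank, h7, finrank_top] at h6
    exact h6
  rw [Nat.card_eq_fintype_card]
  exact h5

/-- **Golod-Shafarevich, group form.** -/
theorem gs_infinite (hf : ∀ k, f k ∈ augF F (FreeGroup α) (d k)) (hd : ∀ k, 1 ≤ d k) {t : ℝ}
    (ht0 : 0 < t) (ht1 : t < 1) (hs : Summable fun k => t ^ d k)
    (hgs : 1 - Fintype.card α * t + ∑' k, t ^ d k ≤ 0) {S : Set (FreeGroup α)}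
    (hS : ∀ s ∈ S, ∀ n, of F _ s - 1 ∈ FoxFil.J F f ⊔ augF F (FreeGroup α) n) :
    Infinite (FreeGroup α ⧸ Subgroup.normalClosure S) := by
  by_contra hcon
  rw [not_infinite_iff_finite] at hcon
  obtain ⟨n, hn⟩ := (foxFil F α).gs_unbounded hf hd ht0 ht1 hs hgs
    (Nat.card (FreeGroup α ⧸ Subgroup.normalClosure S))
  refine absurd (card_bound (F := F) (f := f) (n := n) ?_) (not_le.mpr hn)
  exact Subgroup.normalClosure_le_normal fun s hs => hS s hs n

end fox

end Vale.Agent.P300.GS
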