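import Mathlib

/-!
# P300, block A: the Golod-Shafarevich criterion with infinitely many relators (abstract form)

`FoxFil F R ι`: an `F`-algebra `R` with elements `X i`, `i : ι`, and a filtration `I n` by two-sided
ideals such that `I (n+1) = ⨁ I n * X i` (Fox decomposition) and `R = F + I 1`.

For a family `f k ∈ I (d k)`, `1 ≤ d k`, with finitely many `k` of each degree, and `J` the two-sided
ideal generated by the `f k`, put `c n = dim R / (J + I n)`.

* `FoxFil.gs_ineq`: `r * c n + 1 ≤ c (n+1) + ∑_{d k ≤ n} c (n + 1 - d k)`.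
* `FoxFil.gs_unbounded`: if `1 - r t + ∑ t ^ d k ≤ 0` for some `0 < t < 1` then `c` is unbounded.
-/

namespace Vale.Agent.P300.GS

open Finset Submodule

/-- A filtered algebra with a Fox decomposition. -/
structure FoxFil (F : Type*) [Field F] (R : Type*) [Ring R] [Algebra F R]
    (ι : Type*) [Fintype ι] where
  X : ι → R
  I : ℕ → Submodule F R
  zero : I 0 = ⊤
  anti : Antitone I
  mul : ∀ {m n : ℕ} {a b : R}, a ∈ I m → b ∈ I n → a * b ∈ I (m + n)
  dec : ∀ (n : ℕ), ∀ r ∈ I (n + 1), ∃ a : ι → R, (∀ i, a i ∈ I n) ∧ r = ∑ i, a i * X i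
  Xmem : ∀ i, X i ∈ I 1
  uniq : ∀ a : ι → R, ∑ i, a i * X i = 0 → a = 0
  one : ∀ r : R, ∃ c : F, r - algebraMap F R c ∈ I 1
  one' : (1 : R) ∉ I 1

namespace FoxFil

variable {F : Type*} [Field F] {R : Type*} [Ring R] [Algebra F R] {ι : Type*} [Fintype ι]
  (A : FoxFil F R ι) {κ : Type*} (f : κ → R) (d : κ → ℕ)

/-- The two-sided ideal generated by a family (as an `F`-subspace). -/
def J (F : Type*) [Field F] {R : Type*} [Ring R] [Algebra F R] {κ : Type*} (f : κ → R) :
    Submodule F R :=
  span F {x | ∃ a k b, x = a * f k * b}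

/-- `J + I n`. -/
def K (n : ℕ) : Submodule F R := J F f ⊔ A.I n

variable {f d}

theorem gen_mem (k : κ) : f k ∈ J F f :=
  subset_span ⟨1, k, 1, by simp⟩

theorem J_mul_left (a : R) {x : R} (hx : x ∈ J F f) : a * x ∈ J F f := by
  induction hx using span_induction with
  | mem x hx =>
    obtain ⟨b, k, c, rfl⟩ := hx
    exact subset_span ⟨a * b, k, c, by simp only [mul_assoc]⟩
  | zero => rw [mul_zero]; exact zero_mem _
  | add x y _ _ hx hy => rw [mul_add]; exact add_mem hx hy
  | smul c x _ hx => rw [mul_smul_comm]; exact smul_mem _ _ hx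

theorem J_mul_right (a : R) {x : R} (hx : x ∈ J F f) : x * a ∈ J F f := by
  induction hx using span_induction with
  | mem x hx =>
    obtain ⟨b, k, c, rfl⟩ := hx
    exact subset_span ⟨b, k, c * a, by simp only [mul_assoc]⟩
  | zero => rw [zero_mul]; exact zero_mem _
  | add x y _ _ hx hy => rw [add_mul]; exact add_mem hx hy
  | smul c x _ hx => rw [smul_mul_assoc]; exact smul_mem _ _ hx

theorem mul_left {n : ℕ} (a : R) {x : R} (hx : x ∈ A.I n) : a * x ∈ A.I n := by
  have h : a ∈ A.I 0 := by rw [A.zero]; trivial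
  have := A.mul h hx
  rwa [zero_add] at this

theorem mul_right {n : ℕ} (a : R) {x : R} (hx : x ∈ A.I n) : x * a ∈ A.I n := by
  have h : a ∈ A.I 0 := by rw [A.zero]; trivial
  exact A.mul hx h

theorem K_anti : Antitone (A.K f) := fun _ _ h => sup_le_sup_left (A.anti h) _

theorem J_le_K (n : ℕ) : J F f ≤ A.K f n := le_sup_left

theorem I_le_K (n : ℕ) : A.I n ≤ A.K f n := le_sup_right

theorem K_mul {m n : ℕ} {x y : R} (hx : x ∈ A.K f m) (hy : y ∈ A.I n) :
    x * y ∈ A.K f (m + n) := by
  obtain ⟨j, hj, i, hi, rfl⟩ := mem_sup.mp hx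
  rw [add_mul]
  exact add_mem (A.J_le_K _ (J_mul_right y hj)) (A.I_le_K _ (A.mul hi hy))

theorem K_mul_left {m : ℕ} (y : R) {x : R} (hx : x ∈ A.K f m) : y * x ∈ A.K f m := by
  obtain ⟨j, hj, i, hi, rfl⟩ := mem_sup.mp hx
  rw [mul_add]
  exact add_mem (A.J_le_K _ (J_mul_left y hj)) (A.I_le_K _ (A.mul_left y hi))

theorem K_mul_right {m : ℕ} (y : R) {x : R} (hx : x ∈ A.K f m) : x * y ∈ A.K f m := by
  obtain ⟨j, hj, i, hi, rfl⟩ := mem_sup.mp hx
  rw [add_mul]
  exact add_mem (A.J_le_K _ (J_mul_right y hj)) (A.I_le_K _ (A.mul_right y hi))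

theorem dec0 (r : R) : ∃ (c : F) (a : ι → R), r = algebraMap F R c + ∑ i, a i * A.X i := by
  obtain ⟨c, hc⟩ := A.one r
  obtain ⟨a, -, ha⟩ := A.dec 0 _ hc
  exact ⟨c, a, by rw [← ha]; abel⟩

theorem uniq' {a b : ι → R} (h : ∑ i, a i * A.X i = ∑ i, b i * A.X i) : a = b := by
  have h1 : ∑ i, (a - b) i * A.X i = 0 := by
    simp only [Pi.sub_apply, sub_mul, Finset.sum_sub_distrib]
    rw [h, sub_self]
  exact sub_eq_zero.mp (A.uniq _ h1)

/-- Elements of `J`: a combination of the generators with left coefficients plus `∑ J * X i`. -/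
theorem J_dec {x : R} (hx : x ∈ J F f) : ∃ (u : κ →₀ R) (j : ι → R), (∀ i, j i ∈ J F f) ∧
    x = (u.sum fun k a => a * f k) + ∑ i, j i * A.X i := by
  classical
  induction hx using span_induction with
  | mem x hx =>
    obtain ⟨a, k, b, rfl⟩ := hx
    obtain ⟨c, b', rfl⟩ := A.dec0 b
    refine ⟨Finsupp.single k (a * algebraMap F R c), fun i => a * f k * b' i,
      fun i => subset_span ⟨a, k, b' i, rfl⟩, ?_⟩
    rw [Finsupp.sum_single_index (by rw [zero_mul]), mul_add, Finset.mul_sum]
    congr 1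
    · rw [mul_assoc, ← Algebra.commutes c (f k), ← mul_assoc]
    · exact Finset.sum_congr rfl fun i _ => by rw [mul_assoc, mul_assoc, mul_assoc]
  | zero => exact ⟨0, 0, fun i => zero_mem _, by simp⟩
  | add x y _ _ hx hy =>
    obtain ⟨u, j, hj, rfl⟩ := hx
    obtain ⟨v, l, hl, rfl⟩ := hy
    refine ⟨u + v, j + l, fun i => add_mem (hj i) (hl i), ?_⟩
    rw [Finsupp.sum_add_index' (fun k => zero_mul _) (fun k a b => add_mul _ _ _)]
    simp only [Pi.add_apply, add_mul, Finset.sum_add_distrib]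
    abel
  | smul c x _ hx =>
    obtain ⟨u, j, hj, rfl⟩ := hx
    refine ⟨c • u, fun i => c • j i, fun i => smul_mem _ _ (hj i), ?_⟩
    rw [Finsupp.sum_smul_index' (fun k => zero_mul _), smul_add, Finsupp.smul_sum,
      Finset.smul_sum]
    simp only [smul_mul_assoc]

/-! ### Finite dimension -/

instance finite_quot_I (n : ℕ) : FiniteDimensional F (R ⧸ A.I n) := by
  classical
  induction n with
  | zero =>
    rw [A.zero]
    infer_instance
  | succ n ih =>
    let g : ι → ((R ⧸ A.I n) →ₗ[F] (R ⧸ A.I (n + 1))) := fun i =>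
      mapQ (A.I n) (A.I (n + 1)) (LinearMap.mulRight F (A.X i)) fun x hx => by
        rw [mem_comap, LinearMap.mulRight_apply]
        exact A.mul hx (A.Xmem i)
    let G : ((ι → (R ⧸ A.I n)) × F) →ₗ[F] (R ⧸ A.I (n + 1)) :=
      LinearMap.coprod (LinearMap.lsum F (fun _ => R ⧸ A.I n) F g)
        (LinearMap.toSpanSingleton F _ ((A.I (n + 1)).mkQ 1))
    refine Module.Finite.of_surjective G fun y => ?_
    obtain ⟨r, rfl⟩ := (A.I (n + 1)).mkQ_surjective y
    obtain ⟨c, a, rfl⟩ := A.dec0 r
    refine ⟨(fun i => (A.I n).mkQ (a i), c), ?_⟩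
    simp only [G, g, LinearMap.coprod_apply, LinearMap.lsum_apply, LinearMap.sum_apply,
      LinearMap.comp_apply, LinearMap.proj_apply, mkQ_apply, mapQ_apply,
      LinearMap.mulRight_apply, LinearMap.toSpanSingleton_apply]
    rw [← mkQ_apply, ← mkQ_apply, map_add, map_sum, Algebra.algebraMap_eq_smul_one, map_smul,
      add_comm (c • _)]
    rfl

instance finite_quot (n : ℕ) : FiniteDimensional F (R ⧸ A.K f n) := by
  refine Module.Finite.of_surjective (mapQ (A.I n) (A.K f n) LinearMap.id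
    (by rw [comap_id]; exact A.I_le_K n)) fun y => ?_
  obtain ⟨r, rfl⟩ := (A.K f n).mkQ_surjective y
  exact ⟨(A.I n).mkQ r, rfl⟩

/-- The dimensions. -/
noncomputable def c (f : κ → R) (n : ℕ) : ℕ := Module.finrank F (R ⧸ A.K f n)

theorem c_zero : A.c f 0 = 0 := by
  have h : A.K f 0 = ⊤ := by
    rw [K, A.zero, sup_top_eq]
  unfold c
  rw [h]
  exact Module.finrank_zero_of_subsingleton

/-- **The Golod-Shafarevich inequality.** -/
theorem gs_ineq (hf : ∀ k, f k ∈ A.I (d k)) (hd : ∀ k, 1 ≤ d k)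
    (hfin : ∀ n, {k | d k ≤ n}.Finite) (n : ℕ) :
    Fintype.card ι * A.c f n + 1 ≤
      A.c f (n + 1) + ∑ k ∈ (hfin n).toFinset, A.c f (n + 1 - d k) := by
  classical
  -- Fox derivatives of the relators
  have hdf : ∀ k, ∃ a : ι → R, (∀ i, a i ∈ A.I (d k - 1)) ∧ f k = ∑ i, a i * A.X i := fun k => by
    refine A.dec (d k - 1) (f k) ?_
    rw [Nat.sub_add_cancel (hd k)]
    exact hf k
  choose D hD hfD using hdf
  -- the maps
  let g : ι → ((R ⧸ A.K f n) →ₗ[F] (R ⧸ A.K f (n + 1))) := fun i =>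
    mapQ (A.K f n) (A.K f (n + 1)) (LinearMap.mulRight F (A.X i)) fun x hx => by
      rw [mem_comap, LinearMap.mulRight_apply]
      exact A.K_mul hx (A.Xmem i)
  let Φ : (ι → (R ⧸ A.K f n)) →ₗ[F] (R ⧸ A.K f (n + 1)) :=
    LinearMap.lsum F (fun _ => R ⧸ A.K f n) F g
  have hΦ : ∀ a : ι → R, Φ (fun i => (A.K f n).mkQ (a i)) =
      (A.K f (n + 1)).mkQ (∑ i, a i * A.X i) := by
    intro a
    simp only [Φ, g, LinearMap.lsum_apply, LinearMap.sum_apply, LinearMap.comp_apply,
      LinearMap.proj_apply, mkQ_apply, mapQ_apply, LinearMap.mulRight_apply]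
    rw [← mkQ_apply, map_sum]
    rfl
  let h : (k : κ) → d k ≤ n → ι → ((R ⧸ A.K f (n + 1 - d k)) →ₗ[F] (R ⧸ A.K f n)) :=
    fun k hk i => mapQ (A.K f (n + 1 - d k)) (A.K f n) (LinearMap.mulRight F (D k i))
      fun x hx => by
        rw [mem_comap, LinearMap.mulRight_apply]
        have h1 := A.K_mul hx (hD k i)
        have h2 : n + 1 - d k + (d k - 1) = n := by have := hd k; omega
        rwa [h2] at h1
  let Ψ : κ → Submodule F (ι → (R ⧸ A.K f n)) := fun k =>
    if hk : d k ≤ n then LinearMap.range (LinearMap.pi (h k hk)) else ⊥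
  have hΨ : ∀ k, d k ≤ n → ∀ u : R, (fun i => (A.K f n).mkQ (u * D k i)) ∈ Ψ k := by
    intro k hk u
    simp only [Ψ, dif_pos hk]
    refine ⟨(A.K f (n + 1 - d k)).mkQ u, ?_⟩
    funext i
    rfl
  have hΨc : ∀ k, d k ≤ n → Module.finrank F (Ψ k) ≤ A.c f (n + 1 - d k) := by
    intro k hk
    have h1 : Ψ k = LinearMap.range (LinearMap.pi (h k hk)) := dif_pos hk
    rw [h1]
    exact LinearMap.finrank_range_le _
  -- the kernel
  have hker : LinearMap.ker Φ ≤ (hfin n).toFinset.sup Ψ := by
    intro x hx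
    have hx' : ∀ i, ∃ a : R, (A.K f n).mkQ a = x i := fun i => (A.K f n).mkQ_surjective (x i)
    choose a ha using hx'
    have hxa : x = fun i => (A.K f n).mkQ (a i) := funext fun i => (ha i).symm
    rw [LinearMap.mem_ker, hxa, hΦ, mkQ_apply, Submodule.Quotient.mk_eq_zero] at hx
    obtain ⟨j, hj, b, hb, hjb⟩ := mem_sup.mp hx
    obtain ⟨u, j', hj', rfl⟩ := A.J_dec hj
    obtain ⟨b', hb', rfl⟩ := A.dec n b hb
    have h1 : ∑ i, a i * A.X i =
        ∑ i, ((u.sum fun k v => v * D k i) + j' i + b' i) * A.X i := by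
      rw [← hjb]
      have h2 : (u.sum fun k v => v * f k) = ∑ i, (u.sum fun k v => v * D k i) * A.X i := by
        simp only [Finsupp.sum, Finset.sum_mul]
        rw [Finset.sum_comm]
        refine Finset.sum_congr rfl fun k _ => ?_
        conv_lhs => rw [hfD k]
        rw [Finset.mul_sum]
        exact Finset.sum_congr rfl fun i _ => by rw [mul_assoc]
      rw [h2, ← Finset.sum_add_distrib, ← Finset.sum_add_distrib]
      exact Finset.sum_congr rfl fun i _ => by rw [add_mul, add_mul]
    have h3 := A.uniq' h1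
    have h4 : x = ∑ k ∈ u.support, fun i => (A.K f n).mkQ (u k * D k i) := by
      rw [hxa]
      funext i
      rw [Finset.sum_apply, h3]
      simp only [map_add, Finsupp.sum, map_sum]
      have e1 : (A.K f n).mkQ (j' i) = 0 := by
        rw [mkQ_apply, Submodule.Quotient.mk_eq_zero]
        exact A.J_le_K n (hj' i)
      have e2 : (A.K f n).mkQ (b' i) = 0 := by
        rw [mkQ_apply, Submodule.Quotient.mk_eq_zero]
        exact A.I_le_K n (hb' i)
      rw [e1, e2, add_zero, add_zero]
    rw [h4]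
    refine sum_mem fun k _ => ?_
    by_cases hk : d k ≤ n
    · exact (Finset.le_sup (f := Ψ) ((hfin n).mem_toFinset.mpr hk)) (hΨ k hk (u k))
    · have h5 : (fun i => (A.K f n).mkQ (u k * D k i)) = 0 := by
        funext i
        rw [Pi.zero_apply, mkQ_apply, Submodule.Quotient.mk_eq_zero]
        refine A.I_le_K n (A.mul_left _ (A.anti ?_ (hD k i)))
        omega
      rw [h5]
      exact zero_mem _
  have hkerc : Module.finrank F (LinearMap.ker Φ) ≤
      ∑ k ∈ (hfin n).toFinset, A.c f (n + 1 - d k) := by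
    refine (Submodule.finrank_mono hker).trans ?_
    have key : ∀ S : Finset κ, Module.finrank F ((S.sup Ψ : Submodule F (ι → (R ⧸ A.K f n)))) ≤
        ∑ k ∈ S, Module.finrank F (Ψ k) := by
      intro S
      induction S using Finset.induction_on with
      | empty =>
        rw [Finset.sup_empty, Finset.sum_empty, finrank_bot]
      | insert k S hk ih =>
        rw [Finset.sup_insert, Finset.sum_insert hk]
        refine (Submodule.finrank_add_le_finrank_add_finrank _ _).trans ?_
        exact Nat.add_le_add_left ih _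
    refine (key _).trans (Finset.sum_le_sum fun k hk => hΨc k ?_)
    exact (hfin n).mem_toFinset.mp hk
  -- the range
  have hrange : Module.finrank F (LinearMap.range Φ) + 1 ≤ A.c f (n + 1) := by
    refine Nat.succ_le_of_lt (Submodule.finrank_lt ?_)
    intro htop
    have h1 : (A.K f (n + 1)).mkQ 1 ∈ LinearMap.range Φ := by rw [htop]; trivial
    obtain ⟨x, hx⟩ := h1
    have hx' : ∀ i, ∃ a : R, (A.K f n).mkQ a = x i := fun i => (A.K f n).mkQ_surjective (x i)
    choose a ha using hx'
    have hxa : x = fun i => (A.K f n).mkQ (a i) := funext fun i => (ha i).symm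
    rw [hxa, hΦ, mkQ_apply, mkQ_apply, Submodule.Quotient.eq] at hx
    have h2 : A.K f (n + 1) ≤ A.I 1 := by
      refine sup_le ?_ (A.anti (by omega))
      refine span_le.mpr ?_
      rintro _ ⟨a, k, b, rfl⟩
      exact A.mul_right _ (A.mul_left _ (A.anti (hd k) (hf k)))
    have h3 : ∑ i, a i * A.X i ∈ A.I 1 := sum_mem fun i _ => A.mul_left _ (A.Xmem i)
    have h4 := sub_mem h3 (h2 hx)
    rw [sub_sub_cancel] at h4
    exact A.one' h4
  have h5 := LinearMap.finrank_range_add_finrank_ker Φ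
  have h6 : Module.finrank F (ι → (R ⧸ A.K f n)) = Fintype.card ι * A.c f n := by
    rw [Module.finrank_pi_fintype]
    simp [c]
  rw [h6] at h5
  omega

/-- **Golod-Shafarevich**: the dimensions are unbounded. -/
theorem gs_unbounded (hf : ∀ k, f k ∈ A.I (d k)) (hd : ∀ k, 1 ≤ d k) {t : ℝ} (ht0 : 0 < t)
    (ht1 : t < 1) (hs : Summable fun k => t ^ d k)
    (hgs : 1 - Fintype.card ι * t + ∑' k, t ^ d k ≤ 0) (D : ℕ) : ∃ n, D < A.c f n := by
  classical
  by_contra hcon
  push Not at hcon
  have hfin : ∀ n, {k | d k ≤ n}.Finite := by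
    intro n
    have h1 : 0 < t ^ n := pow_pos ht0 n
    have h2 : ∀ᶠ k in Filter.cofinite, t ^ d k < t ^ n :=
      hs.tendsto_cofinite_zero.eventually (gt_mem_nhds h1)
    rw [Filter.eventually_cofinite] at h2
    refine h2.subset fun k hk => ?_
    exact not_lt.mpr (pow_le_pow_of_le_one ht0.le ht1.le hk)
  set S : ℝ := ∑' k, t ^ d k with hS
  set r : ℝ := (Fintype.card ι : ℝ) with hr
  let C : ℕ → ℝ := fun N => ∑ n ∈ Finset.range N, (A.c f n : ℝ) * t ^ n
  have hC0 : ∀ N, 0 ≤ C N := fun N => Finset.sum_nonneg fun n _ => by positivity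
  have hCs : ∀ N, C (N + 1) = C N + A.c f N * t ^ N := fun N => Finset.sum_range_succ _ _
  have hCmono : Monotone C := monotone_nat_of_le_succ fun N => by
    rw [hCs]
    have : 0 ≤ (A.c f N : ℝ) * t ^ N := by positivity
    linarith
  -- the summed inequality
  have key : ∀ N, r * t * C N + ∑ n ∈ Finset.range N, t ^ (n + 1) ≤ (1 + S) * C (N + 1) := by
    intro N
    have h1 : ∀ n, r * (A.c f n : ℝ) + 1 ≤
        A.c f (n + 1) + ∑ k ∈ (hfin n).toFinset, (A.c f (n + 1 - d k) : ℝ) := by
      intro n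
      have h2 := A.gs_ineq hf hd hfin n
      have h3 : ((Fintype.card ι * A.c f n + 1 : ℕ) : ℝ) ≤
        ((A.c f (n + 1) + ∑ k ∈ (hfin n).toFinset, A.c f (n + 1 - d k) : ℕ) : ℝ) := by
        exact_mod_cast h2
      push_cast at h3
      exact h3
    have h2 : r * t * C N + ∑ n ∈ Finset.range N, t ^ (n + 1) =
        ∑ n ∈ Finset.range N, (r * (A.c f n : ℝ) + 1) * t ^ (n + 1) := by
      simp only [C]
      rw [Finset.mul_sum, ← Finset.sum_add_distrib]
      exact Finset.sum_congr rfl fun n _ => by ring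
    rw [h2]
    have h3 : ∑ n ∈ Finset.range N, (r * (A.c f n : ℝ) + 1) * t ^ (n + 1) ≤
        ∑ n ∈ Finset.range N, ((A.c f (n + 1) : ℝ) * t ^ (n + 1) +
          ∑ k ∈ (hfin n).toFinset, (A.c f (n + 1 - d k) : ℝ) * t ^ (n + 1)) := by
      refine Finset.sum_le_sum fun n _ => ?_
      have h4 := mul_le_mul_of_nonneg_right (h1 n) (pow_pos ht0 (n + 1)).le
      rw [add_mul (A.c f (n + 1) : ℝ), Finset.sum_mul] at h4
      exact h4
    refine h3.trans ?_
    rw [Finset.sum_add_distrib]
    have h4 : ∑ n ∈ Finset.range N, (A.c f (n + 1) : ℝ) * t ^ (n + 1) = C (N + 1) := by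
      simp only [C]
      rw [Finset.sum_range_succ', A.c_zero]
      simp
    have h5 : ∑ n ∈ Finset.range N, ∑ k ∈ (hfin n).toFinset,
        (A.c f (n + 1 - d k) : ℝ) * t ^ (n + 1) ≤ S * C (N + 1) := by
      have h6 : ∀ n ∈ Finset.range N, ∑ k ∈ (hfin n).toFinset,
          (A.c f (n + 1 - d k) : ℝ) * t ^ (n + 1) =
          ∑ k ∈ (hfin N).toFinset, if d k ≤ n then (A.c f (n + 1 - d k) : ℝ) * t ^ (n + 1)
            else 0 := by
        intro n hn
        rw [← Finset.sum_filter]
        refine Finset.sum_congr ?_ fun _ _ => rfl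
        ext k
        simp only [Set.Finite.mem_toFinset, Set.mem_ofPred_eq, Finset.mem_filter]
        have := Finset.mem_range.mp hn
        constructor
        · intro h; exact ⟨by omega, h⟩
        · intro h; exact h.2
      rw [Finset.sum_congr rfl h6, Finset.sum_comm]
      have h7 : ∀ k ∈ (hfin N).toFinset, (∑ n ∈ Finset.range N,
          if d k ≤ n then (A.c f (n + 1 - d k) : ℝ) * t ^ (n + 1) else 0) ≤
          t ^ d k * C (N + 1) := by
        intro k _
        simp only [C]
        rw [Finset.mul_sum, ← Finset.sum_filter]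
        have h8 : ∑ n ∈ (Finset.range N).filter (fun n => d k ≤ n),
            (A.c f (n + 1 - d k) : ℝ) * t ^ (n + 1) =
            ∑ m ∈ ((Finset.range N).filter (fun n => d k ≤ n)).image (fun n => n + 1 - d k),
              t ^ d k * ((A.c f m : ℝ) * t ^ m) := by
          rw [Finset.sum_image]
          · refine Finset.sum_congr rfl fun n hn => ?_
            have hn' := (Finset.mem_filter.mp hn).2
            have e : t ^ (n + 1) = t ^ d k * t ^ (n + 1 - d k) := by
              rw [← pow_add]; congr 1; omega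
            rw [e]; ring
          · intro a ha b hb hab
            have ha' := (Finset.mem_filter.mp ha).2
            have hb' := (Finset.mem_filter.mp hb).2
            simp only at hab
            omega
        rw [h8]
        refine Finset.sum_le_sum_of_subset_of_nonneg ?_ fun m _ _ => by positivity
        intro m hm
        obtain ⟨n, hn, rfl⟩ := Finset.mem_image.mp hm
        have := Finset.mem_range.mp (Finset.mem_filter.mp hn).1
        have := hd k
        exact Finset.mem_range.mpr (by omega)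
      refine (Finset.sum_le_sum h7).trans ?_
      rw [← Finset.sum_mul]
      refine mul_le_mul_of_nonneg_right ?_ (hC0 _)
      exact hs.sum_le_tsum _ fun k _ => by positivity
    rw [h4]
    linarith
  -- conclusion
  have hS0 : 0 ≤ S := tsum_nonneg fun k => by positivity
  have h1 : ∀ N, t ≤ (1 + S) * D * t ^ (N + 1) := by
    intro N
    have h2 := key (N + 1)
    rw [hCs (N + 1)] at h2
    have h3 : t ≤ ∑ n ∈ Finset.range (N + 1), t ^ (n + 1) := by
      have h4 : t ^ (0 + 1) ≤ ∑ n ∈ Finset.range (N + 1), t ^ (n + 1) :=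
        Finset.single_le_sum (f := fun n => t ^ (n + 1)) (fun n _ => by positivity)
          (Finset.mem_range.mpr (Nat.succ_pos N))
      simpa using h4
    have h4 : 0 ≤ (r * t - 1 - S) * C (N + 1) := mul_nonneg (by linarith) (hC0 _)
    have h5 : (A.c f (N + 1) : ℝ) ≤ D := by exact_mod_cast hcon (N + 1)
    have h6 : (1 + S) * ((A.c f (N + 1) : ℝ) * t ^ (N + 1)) ≤ (1 + S) * (D * t ^ (N + 1)) :=
      mul_le_mul_of_nonneg_left (mul_le_mul_of_nonneg_right h5 (by positivity)) (by linarith)
    nlinarith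
  have h2 : Filter.Tendsto (fun N : ℕ => (1 + S) * D * t ^ (N + 1)) Filter.atTop
      (nhds ((1 + S) * D * 0)) :=
    ((tendsto_pow_atTop_nhds_zero_of_lt_one ht0.le ht1).comp
      (Filter.tendsto_add_atTop_nat 1)).const_mul _
  rw [mul_zero] at h2
  have h3 := ge_of_tendsto' h2 h1
  linarith

end FoxFil

end Vale.Agent.P300.GS
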