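import Vale.Agent.P300.H863.Adapt

/-!
# P300, block A: assembly of the Golod-Shafarevich estimate, abstract part

`A.Small t ε S`: the set `S` is, modulo every `I N`, contained in the span of a family `f k ∈ I (e k)`,
`1 ≤ e k`, of `t`-mass `∑ t ^ e k < ε`.

* closed under unions, finite unions; singletons; tails `U ⊓ I m` of spans of summable families;
* `Small.unbounded`: if `ε ≤ r t - 1` then `dim R / (ideal of S + I N)` is unbounded.
-/

namespace Vale.Agent.P300.GS

open Finset Submodule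

/-- The two-sided ideal generated by a set (as an `F`-subspace). -/
def JS (F : Type*) [Field F] {R : Type*} [Ring R] [Algebra F R] (S : Set R) : Submodule F R :=
  span F {x | ∃ a, ∃ s ∈ S, ∃ b, x = a * s * b}

section JS

variable {F : Type*} [Field F] {R : Type*} [Ring R] [Algebra F R] {S T : Set R}

theorem subset_JS : S ⊆ JS F S := fun s hs => subset_span ⟨1, s, hs, 1, by simp⟩

theorem JS_mono (h : S ⊆ T) : JS F S ≤ JS F T :=
  span_mono fun _ ⟨a, s, hs, b, e⟩ => ⟨a, s, h hs, b, e⟩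

theorem JS_mul_left (a : R) {x : R} (hx : x ∈ JS F S) : a * x ∈ JS F S := by
  induction hx using span_induction with
  | mem x hx =>
    obtain ⟨b, s, hs, c, rfl⟩ := hx
    exact subset_span ⟨a * b, s, hs, c, by simp only [mul_assoc]⟩
  | zero => rw [mul_zero]; exact zero_mem _
  | add x y _ _ hx hy => rw [mul_add]; exact add_mem hx hy
  | smul c x _ hx => rw [mul_smul_comm]; exact smul_mem _ _ hx

theorem JS_mul_right (a : R) {x : R} (hx : x ∈ JS F S) : x * a ∈ JS F S := by
  induction hx using span_induction with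
  | mem x hx =>
    obtain ⟨b, s, hs, c, rfl⟩ := hx
    exact subset_span ⟨b, s, hs, c * a, by simp only [mul_assoc]⟩
  | zero => rw [zero_mul]; exact zero_mem _
  | add x y _ _ hx hy => rw [add_mul]; exact add_mem hx hy
  | smul c x _ hx => rw [smul_mul_assoc]; exact smul_mem _ _ hx

/-- `JS F S` is contained in every subspace which is closed under both multiplications and
contains `S`. -/
theorem JS_le {P : Submodule F R} (hS : S ⊆ P) (hl : ∀ a, ∀ x ∈ P, a * x ∈ P)
    (hr : ∀ a, ∀ x ∈ P, x * a ∈ P) : JS F S ≤ P := by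
  refine span_le.mpr ?_
  rintro _ ⟨a, s, hs, b, rfl⟩
  exact hr _ _ (hl _ _ (hS hs))

end JS

namespace FoxFil

variable {F : Type*} [Field F] {R : Type*} [Ring R] [Algebra F R] {ι : Type*} [Fintype ι]
  (A : FoxFil F R ι)

/-- Sets of small `t`-mass. -/
def Small (t ε : ℝ) (S : Set R) : Prop :=
  ∃ (κ : Type) (f : κ → R) (e : κ → ℕ), (∀ k, f k ∈ A.I (e k)) ∧ (∀ k, 1 ≤ e k) ∧
    (Summable fun k => t ^ e k) ∧ ∑' k, t ^ e k < ε ∧
    ∀ b ∈ S, ∀ N, b ∈ span F (Set.range f) ⊔ A.I N

variable {A} {t ε ε' : ℝ} {S S' : Set R}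

theorem Small.mono (h : A.Small t ε S) (hS : S' ⊆ S) (hε : ε ≤ ε') : A.Small t ε' S' := by
  obtain ⟨κ, f, e, h1, h2, h3, h4, h5⟩ := h
  exact ⟨κ, f, e, h1, h2, h3, h4.trans_le hε, fun b hb => h5 b (hS hb)⟩

theorem Small.empty (hε : 0 < ε) : A.Small t ε (∅ : Set R) :=
  ⟨Empty, fun k => k.elim, fun k => k.elim, fun k => k.elim, fun k => k.elim,
    summable_empty, by simpa using hε, fun b hb => hb.elim⟩

theorem Small.union (h : A.Small t ε S) (h' : A.Small t ε' S') :
    A.Small t (ε + ε') (S ∪ S') := by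
  obtain ⟨κ, f, e, h1, h2, h3, h4, h5⟩ := h
  obtain ⟨κ', f', e', h1', h2', h3', h4', h5'⟩ := h'
  have hs : HasSum (fun k : κ ⊕ κ' => t ^ Sum.elim e e' k) (∑' k, t ^ e k + ∑' k, t ^ e' k) :=
    HasSum.sum h3.hasSum h3'.hasSum
  refine ⟨κ ⊕ κ', Sum.elim f f', Sum.elim e e', ?_, ?_, hs.summable, ?_, ?_⟩
  · rintro (k | k)
    · exact h1 k
    · exact h1' k
  · rintro (k | k)
    · exact h2 k
    · exact h2' k
  · rw [hs.tsum_eq]
    linarith
  · rintro b (hb | hb) N
    · have hle : span F (Set.range f) ≤ span F (Set.range (Sum.elim f f')) := by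
        refine span_mono ?_
        rintro _ ⟨k, rfl⟩
        exact ⟨Sum.inl k, rfl⟩
      exact (sup_le_sup_right hle _ : _ ≤ _) (h5 b hb N)
    · have hle : span F (Set.range f') ≤ span F (Set.range (Sum.elim f f')) := by
        refine span_mono ?_
        rintro _ ⟨k, rfl⟩
        exact ⟨Sum.inr k, rfl⟩
      exact (sup_le_sup_right hle _ : _ ≤ _) (h5' b hb N)

theorem Small.biUnion {K : Type*} (s : Finset K) {T : K → Set R} {η : ℝ} (hε : 0 < ε)
    (h : ∀ g ∈ s, A.Small t η (T g)) : A.Small t (ε + s.card * η) (⋃ g ∈ s, T g) := by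
  classical
  induction s using Finset.induction_on with
  | empty =>
    simpa using Small.empty (A := A) (t := t) hε
  | insert g s hg ih =>
    have h1 := ih fun g' hg' => h g' (Finset.mem_insert_of_mem hg')
    have h2 := h g (Finset.mem_insert_self g s)
    refine (h1.union h2).mono ?_ ?_
    · rw [Finset.set_biUnion_insert, Set.union_comm]
    · rw [Finset.card_insert_of_notMem hg]
      push_cast
      linarith

theorem Small.singleton {b : R} {q : ℕ} (hb : b ∈ A.I q) (hq : 1 ≤ q) (ht : t ^ q < ε) :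
    A.Small t ε {b} := by
  refine ⟨Unit, fun _ => b, fun _ => q, fun _ => hb, fun _ => hq, (hasSum_fintype _).summable, ?_,
    ?_⟩
  · rw [tsum_fintype]
    simpa using ht
  · rintro _ rfl N
    exact mem_sup_left (subset_span ⟨(), rfl⟩)

/-- Tails of summable spans are small. -/
theorem small_tail (U : Submodule F R) {κ : Type*} {w : κ → R} {d : κ → ℕ}
    (hw : ∀ k, w k ∈ A.I (d k)) (ht0 : 0 < t) (ht1 : t < 1) (hs : Summable fun k => t ^ d k)
    (hU : ∀ n, U ≤ span F (Set.range w) ⊔ A.I n) (hε : 0 < ε) :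
    ∃ m₀, ∀ m ≥ m₀, A.Small t ε ((U ⊓ A.I m : Submodule F R) : Set R) := by
  obtain ⟨m₀, h⟩ := exists_adapted U (fun n => A.finite_quot_I n) A.anti hw ht0 ht1 hs hU hε
  refine ⟨max m₀ 1, fun m hm => ?_⟩
  obtain ⟨κ', f, e, -, h2, h3, h4, h5, h6⟩ := h m (le_trans (le_max_left _ _) hm)
  exact ⟨κ', f, e, h2, fun k => le_trans (le_trans (le_max_right _ _) hm) (h3 k), h5, h6,
    fun b hb N => h4 N hb⟩

instance finite_quot_JS (S : Set R) (N : ℕ) : FiniteDimensional F (R ⧸ (JS F S ⊔ A.I N)) := by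
  refine Module.Finite.of_surjective (mapQ (A.I N) (JS F S ⊔ A.I N) LinearMap.id
    (by rw [comap_id]; exact le_sup_right)) fun y => ?_
  obtain ⟨r, rfl⟩ := (JS F S ⊔ A.I N).mkQ_surjective y
  exact ⟨(A.I N).mkQ r, rfl⟩

/-- **Golod-Shafarevich for small sets of relators.** -/
theorem Small.unbounded (h : A.Small t ε S) (ht0 : 0 < t) (ht1 : t < 1)
    (hε : ε ≤ Fintype.card ι * t - 1) (D : ℕ) :
    ∃ N, D < Module.finrank F (R ⧸ (JS F S ⊔ A.I N)) := by
  obtain ⟨κ, f, e, h1, h2, h3, h4, h5⟩ := h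
  obtain ⟨N, hN⟩ := A.gs_unbounded h1 h2 ht0 ht1 h3 (by linarith) D
  refine ⟨N, hN.trans_le ?_⟩
  have hle : JS F S ⊔ A.I N ≤ A.K f N := by
    refine sup_le (JS_le (fun b hb => ?_) (fun a x hx => A.K_mul_left a hx)
      fun a x hx => A.K_mul_right a hx) (A.I_le_K N)
    have hle' : span F (Set.range f) ≤ J F f := by
      refine span_le.mpr ?_
      rintro _ ⟨k, rfl⟩
      exact gen_mem k
    exact (sup_le_sup_right hle' _ : _ ≤ _) (h5 b hb N)
  refine LinearMap.finrank_le_finrank_of_surjective (f := mapQ (JS F S ⊔ A.I N) (A.K f N)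
    LinearMap.id (by rw [comap_id]; exact hle)) fun y => ?_
  obtain ⟨r, rfl⟩ := (A.K f N).mkQ_surjective y
  exact ⟨(JS F S ⊔ A.I N).mkQ r, rfl⟩

end FoxFil

end Vale.Agent.P300.GS
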