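import Vale.Agent.P300.H863.Gsla
import Vale.Agent.P300.H746.Sym

/-!
# P300, block A: tails and symmetrised powers, uniformly in the field

The thresholds depend only on the degree function `d : κ → ℕ` and on `t`.
-/

namespace Vale.Agent.P300.GS

open Finset Submodule Filter Topology

theorem finite_lt {κ : Type*} {d : κ → ℕ} {t : ℝ} (ht0 : 0 < t) (ht1 : t < 1)
    (hs : Summable fun k => t ^ d k) (n : ℕ) : {k | d k < n}.Finite := by
  have h1 : 0 < t ^ n := pow_pos ht0 n
  have h2 : ∀ᶠ k in Filter.cofinite, t ^ d k < t ^ n :=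
    hs.tendsto_cofinite_zero.eventually (gt_mem_nhds h1)
  rw [Filter.eventually_cofinite] at h2
  refine h2.subset fun k hk => ?_
  exact not_lt.mpr (pow_le_pow_of_le_one ht0.le ht1.le (le_of_lt hk))

/-- Comparison of masses through counting functions. -/
theorem sum_pow_le_of_card {κ : Type*} {r : ℕ → ℕ} {D : κ → ℕ} {t : ℝ} (ht0 : 0 < t)
    (ht1 : t < 1) (hs : Summable fun k => t ^ D k) (hfin : ∀ n, {k | D k < n}.Finite)
    (h : ∀ n, ∑ e ∈ Finset.range n, r e ≤ (hfin n).toFinset.card) (n : ℕ) :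
    ∑ e ∈ Finset.range n, (r e : ℝ) * t ^ e ≤ ∑' k, t ^ D k := by
  classical
  let b : ℕ → ℝ := fun e => (((hfin (e + 1)).toFinset.filter fun k => D k = e).card : ℝ)
  have hb : ∀ n, ∀ g : ℕ → ℝ, ∑ e ∈ Finset.range n, b e * g e =
      ∑ k ∈ (hfin n).toFinset, g (D k) := by
    intro n g
    have h1 : ∀ k ∈ (hfin n).toFinset, D k ∈ Finset.range n := fun k hk =>
      Finset.mem_range.mpr ((hfin n).mem_toFinset.mp hk)
    rw [← Finset.sum_fiberwise_of_maps_to h1]
    refine Finset.sum_congr rfl fun e he => ?_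
    have h2 : ∑ k ∈ (hfin n).toFinset.filter (fun k => D k = e), g (D k) =
        ∑ k ∈ (hfin n).toFinset.filter (fun k => D k = e), g e :=
      Finset.sum_congr rfl fun k hk => by rw [(Finset.mem_filter.mp hk).2]
    have h3 : (hfin (e + 1)).toFinset.filter (fun k => D k = e) =
        (hfin n).toFinset.filter (fun k => D k = e) := by
      ext k
      have hen := Finset.mem_range.mp he
      rw [Finset.mem_filter, Finset.mem_filter, Set.Finite.mem_toFinset, Set.Finite.mem_toFinset]
      constructor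
      · rintro ⟨_, h5⟩
        exact ⟨show D k < n by omega, h5⟩
      · rintro ⟨_, h5⟩
        exact ⟨show D k < e + 1 by omega, h5⟩
    have h4 : b e = (((hfin n).toFinset.filter fun k => D k = e).card : ℝ) := by
      rw [← h3]
    rw [h2, Finset.sum_const, nsmul_eq_mul, h4]
  have h1 : ∀ n, ∑ e ∈ Finset.range n, (r e : ℝ) ≤ ∑ e ∈ Finset.range n, b e := by
    intro n
    have h3 := hb n fun _ => 1
    simp only [mul_one, Finset.sum_const, nsmul_eq_mul] at h3
    rw [h3]
    exact_mod_cast h n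
  refine (abel_le h1 ht0.le ht1.le n).trans ?_
  rw [hb n fun e => t ^ e]
  exact hs.sum_le_tsum _ fun k _ => by positivity

/-- The uniform tail. -/
theorem tendsto_tail {κ : Type*} {d : κ → ℕ} {t : ℝ} (ht0 : 0 < t) (ht1 : t < 1)
    (hs : Summable fun k => t ^ d k) :
    Tendsto (fun m : ℕ => ∑' k, t ^ max (d k) m) atTop (𝓝 0) := by
  have h := tendsto_tsum_of_dominated_convergence (𝓕 := atTop)
    (f := fun (m : ℕ) k => t ^ max (d k) m) (g := fun _ => (0 : ℝ)) (bound := fun k => t ^ d k)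
    hs ?_ ?_
  · simpa using h
  · intro k
    have h1 : Tendsto (fun m : ℕ => t ^ m) atTop (𝓝 0) :=
      tendsto_pow_atTop_nhds_zero_of_lt_one ht0.le ht1
    refine squeeze_zero (fun m => by positivity) (fun m => ?_) h1
    exact pow_le_pow_of_le_one ht0.le ht1.le (le_max_right _ _)
  · refine Eventually.of_forall fun m k => ?_
    rw [Real.norm_eq_abs, abs_of_nonneg (by positivity)]
    exact pow_le_pow_of_le_one ht0.le ht1.le (le_max_left _ _)

theorem summable_max {κ : Type*} {d : κ → ℕ} {t : ℝ} (ht0 : 0 < t) (ht1 : t < 1)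
    (hs : Summable fun k => t ^ d k) (m : ℕ) : Summable fun k => t ^ max (d k) m :=
  hs.of_nonneg_of_le (fun k => by positivity) fun k =>
    pow_le_pow_of_le_one ht0.le ht1.le (le_max_left _ _)

section

variable {F : Type*} [Field F] {R : Type*} [AddCommGroup R] [Module F R]
  {I : ℕ → Submodule F R} (U : Submodule F R)

theorem tail_gd_le (hfd : ∀ n, FiniteDimensional F (R ⧸ I n)) (hanti : Antitone I)
    {κ : Type*} {w : κ → R} {d : κ → ℕ} (hw : ∀ k, w k ∈ I (d k))
    {t : ℝ} (ht0 : 0 < t) (ht1 : t < 1) (hs : Summable fun k => t ^ d k)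
    (hU : ∀ n, U ≤ span F (Set.range w) ⊔ I n) (m : ℕ) :
    ∑' e : {e : ℕ // m ≤ e}, (gd I U e : ℝ) * t ^ (e : ℕ) ≤ ∑' k, t ^ max (d k) m := by
  classical
  have hfin := finite_lt ht0 ht1 hs
  have hs' := summable_max ht0 ht1 hs m
  have hfin' := finite_lt ht0 ht1 hs'
  let r : ℕ → ℕ := fun e => if m ≤ e then gd I U e else 0
  have h1 : ∀ n, ∑ e ∈ Finset.range n, r e ≤ (hfin' n).toFinset.card := by
    intro n
    rcases le_or_gt n m with hn | hn
    · have : ∑ e ∈ Finset.range n, r e = 0 := by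
        refine Finset.sum_eq_zero fun e he => ?_
        have := Finset.mem_range.mp he
        exact if_neg (by omega)
      rw [this]
      exact Nat.zero_le _
    · have h2 : ∑ e ∈ Finset.range n, r e ≤ ∑ e ∈ Finset.range n, gd I U e := by
        refine Finset.sum_le_sum fun e _ => ?_
        simp only [r]
        split_ifs <;> omega
      refine h2.trans ((sum_gd_le_finrank U hfd hanti n).trans
        ((finrank_map_le U hw hanti hfin hU n).trans (Finset.card_le_card fun k hk => ?_)))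
      rw [Set.Finite.mem_toFinset] at hk ⊢
      exact max_lt hk hn
  have h2 := sum_pow_le_of_card ht0 ht1 hs' hfin' h1
  have h3 : ∑' e : {e : ℕ // m ≤ e}, (gd I U e : ℝ) * t ^ (e : ℕ) =
      ∑' e : ℕ, (r e : ℝ) * t ^ e := by
    have h4 := tsum_subtype {e : ℕ | m ≤ e} fun e => (gd I U e : ℝ) * t ^ e
    refine Eq.trans h4 (tsum_congr fun e => ?_)
    by_cases he : m ≤ e
    · rw [Set.indicator_of_mem (show e ∈ {e : ℕ | m ≤ e} from he)]
      simp only [r, if_pos he]
    · rw [Set.indicator_of_notMem (show e ∉ {e : ℕ | m ≤ e} from he)]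
      simp only [r, if_neg he, Nat.cast_zero, zero_mul]
  rw [h3]
  exact Real.tsum_le_of_sum_range_le (fun n => by positivity) h2

end

namespace FoxFil

variable {F : Type*} [Field F] {R : Type*} [Ring R] [Algebra F R] {ι : Type*} [Fintype ι]
  {A : FoxFil F R ι} {t ε : ℝ}

/-- Tails of summable spans are small, uniform version. -/
theorem small_tail' (U : Submodule F R) {κ : Type*} {w : κ → R} {d : κ → ℕ}
    (hw : ∀ k, w k ∈ A.I (d k)) (ht0 : 0 < t) (ht1 : t < 1) (hs : Summable fun k => t ^ d k)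
    (hU : ∀ n, U ≤ span F (Set.range w) ⊔ A.I n) {m : ℕ} (hm1 : 1 ≤ m)
    (hm : ∑' k, t ^ max (d k) m < ε) :
    A.Small t ε ((U ⊓ A.I m : Submodule F R) : Set R) := by
  have hfd := fun n => A.finite_quot_I n
  obtain ⟨f, -, hfI, hfs⟩ := exists_family U hfd A.anti m
  obtain ⟨h1, h2⟩ := hasSum_family U ht0 (summable_gd U hfd A.anti hw ht0 ht1 hs hU) m
  refine ⟨_, f, fun k => (k.1 : ℕ), hfI, fun k => le_trans hm1 k.1.2, h1, ?_,
    fun b hb N => hfs N hb⟩
  rw [h2]
  exact (tail_gd_le U hfd A.anti hw ht0 ht1 hs hU m).trans_lt hm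

/-- Symmetrised powers are small, uniform version. -/
theorem small_sym {κ : Type} {w : κ → R} {d : κ → ℕ} (hw : ∀ k, w k ∈ A.I (d k))
    (hd : ∀ k, 1 ≤ d k) (ht0 : 0 < t) (ht1 : t < 1) (hs : Summable fun k => t ^ d k)
    {q : ℕ} (hq1 : 1 ≤ q) (hq : ∑' μ : Sym κ q, t ^ ((μ : Multiset κ).map d).sum < ε) :
    A.Small t ε {x | ∃ b, (∀ N, b ∈ span F (Set.range w) ⊔ A.I N) ∧ x = b ^ q} := by
  classical
  refine ⟨Sym κ q, fun μ => R3.symProd w (μ : Multiset κ),
    fun μ => ((μ : Multiset κ).map d).sum, fun μ => ?_, fun μ => ?_, ?_, hq, ?_⟩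
  · exact R3.symProd_mem A.zero (fun ha hb => A.mul ha hb) hw _
  · exact hq1.trans (R3.le_degree hd q μ)
  · exact R3.summable_sym ht0 ht1 hd hs q
  · rintro _ ⟨b, hb, rfl⟩ N
    exact R3.pow_mem_span (fun a x hx => A.mul_left a hx) (fun a x hx => A.mul_right a hx) w
      (hb N) q

end FoxFil

end Vale.Agent.P300.GS
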